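import Vale.Agent.P113.Comp

/-! Simulation of a machine from its code. -/

namespace Vale.Agent.P113

/-- A raw configuration: state, left half of the tape (reversed), right half of the tape. -/
abbrev RawCfg : Type := ℕ × List ℕ × List ℕ

/-- The table entry used in a raw configuration. -/
def rawEntry (c : MachineCode) (x : RawCfg) : ℕ × ℕ × ℕ :=
  (c.2.2.getD x.1 []).getD x.2.2.headI (0, 0, 0)

/-- One step of the raw simulation. -/
def rawStep (c : MachineCode) (x : RawCfg) : RawCfg :=
  if (rawEntry c x).2.2 = 0 then
    ((rawEntry c x).1, x.2.1.tail, x.2.1.headI :: (rawEntry c x).2.1 :: x.2.2.tail)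
  else if (rawEntry c x).2.2 = 1 then
    ((rawEntry c x).1, x.2.1, (rawEntry c x).2.1 :: x.2.2.tail)
  else ((rawEntry c x).1, (rawEntry c x).2.1 :: x.2.1, x.2.2.tail)

/-- The raw simulation. -/
def rawRun (c : MachineCode) (w : List ℕ) (s : ℕ) : RawCfg := (rawStep c)^[s] (c.1, [], w)

/-- Is the state reached after `s` steps halting? -/
def rawHalt (c : MachineCode) (w : List ℕ) (s : ℕ) : Bool :=
  c.2.1.getD (rawRun c w s).1 false

theorem primrec_rawEntry : Primrec₂ rawEntry := by
  have h1 : Primrec fun p : MachineCode × RawCfg => p.1.2.2.getD p.2.1 [] :=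
    (Primrec.list_getD []).comp (Primrec.snd.comp (Primrec.snd.comp Primrec.fst))
      (Primrec.fst.comp Primrec.snd)
  have h2 : Primrec fun p : MachineCode × RawCfg => p.2.2.2.headI :=
    Primrec.list_headI.comp (Primrec.snd.comp (Primrec.snd.comp Primrec.snd))
  exact (Primrec.list_getD (0, 0, 0)).comp h1 h2

theorem primrec_rawStep : Primrec₂ rawStep := by
  have he : Primrec fun p : MachineCode × RawCfg => rawEntry p.1 p.2 := primrec_rawEntry
  have e1 := Primrec.fst.comp he
  have e2 := Primrec.fst.comp (Primrec.snd.comp he)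
  have e3 := Primrec.snd.comp (Primrec.snd.comp he)
  have xL : Primrec fun p : MachineCode × RawCfg => p.2.2.1 :=
    Primrec.fst.comp (Primrec.snd.comp Primrec.snd)
  have xR : Primrec fun p : MachineCode × RawCfg => p.2.2.2 :=
    Primrec.snd.comp (Primrec.snd.comp Primrec.snd)
  have tR := Primrec.list_tail.comp xR
  have tL := Primrec.list_tail.comp xL
  have hL := Primrec.list_headI.comp xL
  have c0 : PrimrecPred fun p : MachineCode × RawCfg => (rawEntry p.1 p.2).2.2 = 0 :=
    Primrec.eq.comp e3 (Primrec.const 0)
  have c1 : PrimrecPred fun p : MachineCode × RawCfg => (rawEntry p.1 p.2).2.2 = 1 :=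
    Primrec.eq.comp e3 (Primrec.const 1)
  exact Primrec.ite c0
    (e1.pair (tL.pair (Primrec.list_cons.comp hL (Primrec.list_cons.comp e2 tR))))
    (Primrec.ite c1 (e1.pair (xL.pair (Primrec.list_cons.comp e2 tR)))
      (e1.pair ((Primrec.list_cons.comp e2 xL).pair tR)))

theorem primrec_rawRun :
    Primrec fun p : (MachineCode × List ℕ) × ℕ => rawRun p.1.1 p.1.2 p.2 := by
  have hc : Primrec fun p : (MachineCode × List ℕ) × ℕ => p.1.1 :=
    Primrec.fst.comp Primrec.fst
  have hw : Primrec fun p : (MachineCode × List ℕ) × ℕ => p.1.2 :=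
    Primrec.snd.comp Primrec.fst
  have hg : Primrec fun p : (MachineCode × List ℕ) × ℕ => ((p.1.1.1, [], p.1.2) : RawCfg) :=
    (Primrec.fst.comp hc).pair ((Primrec.const []).pair hw)
  have hh : Primrec₂ fun (p : (MachineCode × List ℕ) × ℕ) (x : RawCfg) => rawStep p.1.1 x :=
    primrec_rawStep.comp (hc.comp Primrec.fst) Primrec.snd
  have h := Primrec.nat_iterate (f := fun p : (MachineCode × List ℕ) × ℕ => p.2)
    (g := fun p : (MachineCode × List ℕ) × ℕ => ((p.1.1.1, [], p.1.2) : RawCfg))
    (h := fun (p : (MachineCode × List ℕ) × ℕ) (x : RawCfg) => rawStep p.1.1 x)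
    Primrec.snd hg hh
  exact h.of_eq fun p => rfl

theorem primrec_rawHalt :
    Primrec fun p : (MachineCode × List ℕ) × ℕ => rawHalt p.1.1 p.1.2 p.2 := by
  have hc : Primrec fun p : (MachineCode × List ℕ) × ℕ => p.1.1.2.1 :=
    Primrec.fst.comp (Primrec.snd.comp (Primrec.fst.comp Primrec.fst))
  have hr : Primrec fun p : (MachineCode × List ℕ) × ℕ => (rawRun p.1.1 p.1.2 p.2).1 :=
    Primrec.fst.comp primrec_rawRun
  exact ((Primrec.list_getD false).comp hc hr).of_eq fun p => rfl

/-! ### Correctness -/

theorem getD_ofFn {β : Type} {n : ℕ} (f : Fin n → β) (q : Fin n) (d : β) :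
    (List.ofFn f).getD q.val d = f q := by
  simp [List.getD]

theorem headI_eq_getD (l : List ℕ) : l.headI = l.getD 0 0 := by
  cases l <;> simp

theorem getD_tail (l : List ℕ) (k : ℕ) : l.tail.getD k 0 = l.getD (k + 1) 0 := by
  cases l <;> simp

/-- The raw configuration represents the configuration. -/
def Rel (M : Machine) (cfg : M.Cfg) (x : RawCfg) : Prop :=
  x.1 = cfg.state.val ∧ (∀ k : ℕ, x.2.2.getD k 0 = (cfg.tape (cfg.head + k)).val) ∧
    (∀ k : ℕ, x.2.1.getD k 0 = (cfg.tape (cfg.head - 1 - k)).val)

theorem rawEntry_eq {M : Machine} {cfg : M.Cfg} {x : RawCfg} (h : Rel M cfg x) :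
    rawEntry M.code x = ((M.rule cfg.state (cfg.tape cfg.head)).1.val,
      (M.rule cfg.state (cfg.tape cfg.head)).2.1.val,
      (M.rule cfg.state (cfg.tape cfg.head)).2.2.code) := by
  obtain ⟨h1, h2, h3⟩ := h
  have h4 : x.2.2.headI = (cfg.tape cfg.head).val := by
    rw [headI_eq_getD, h2 0]
    simp
  unfold rawEntry Machine.code
  simp only []
  rw [h1, getD_ofFn, h4, getD_ofFn]

theorem rel_step {M : Machine} {cfg : M.Cfg} {x : RawCfg} (h : Rel M cfg x) :
    Rel M (M.step cfg) (rawStep M.code x) := by
  have he := rawEntry_eq h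
  obtain ⟨h1, h2, h3⟩ := h
  unfold rawStep
  rw [he]
  have hcons : ∀ (y : ℕ) (l : List ℕ) (k : ℕ), (y :: l).getD (k + 1) 0 = l.getD k 0 := by
    intro y l k
    simp
  have hcons0 : ∀ (y : ℕ) (l : List ℕ), (y :: l).getD 0 0 = y := by
    intro y l
    simp
  cases hmv : (M.rule cfg.state (cfg.tape cfg.head)).2.2 with
  | left =>
    simp only [Move.code, if_true]
    refine ⟨rfl, ?_, ?_⟩
    · intro k
      simp only [Machine.step, hmv, Move.shift]
      rcases k with _ | k
      · rw [hcons0, headI_eq_getD, h3 0, Function.update_of_ne]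
        · congr 2
        · simp
      · rw [hcons]
        rcases k with _ | k
        · rw [hcons0]
          have : cfg.head + -1 + ((0 + 1 : ℕ) : ℤ) = cfg.head := by push_cast; ring
          rw [this, Function.update_self]
        · rw [hcons, getD_tail, h2]
          have : cfg.head + -1 + ((k + 1 + 1 : ℕ) : ℤ) = cfg.head + ((k + 1 : ℕ) : ℤ) := by
            push_cast
            ring
          rw [this, Function.update_of_ne]
          intro hc
          push_cast at hc
          omega
    · intro k
      simp only [Machine.step, hmv, Move.shift]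
      rw [getD_tail, h3, Function.update_of_ne]
      · congr 2
        push_cast
        ring
      · intro hc
        omega
  | stay =>
    simp only [Move.code, if_true, one_ne_zero, if_false]
    refine ⟨rfl, ?_, ?_⟩
    · intro k
      simp only [Machine.step, hmv, Move.shift]
      rcases k with _ | k
      · rw [hcons0]
        simp
      · rw [hcons, getD_tail, h2]
        have : cfg.head + 0 + ((k + 1 : ℕ) : ℤ) = cfg.head + ((k + 1 : ℕ) : ℤ) := by ring
        rw [this, Function.update_of_ne]
        intro hc
        push_cast at hc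
        omega
    · intro k
      simp only [Machine.step, hmv, Move.shift]
      rw [h3, Function.update_of_ne]
      · congr 2
        ring
      · intro hc
        omega
  | right =>
    simp only [Move.code, OfNat.ofNat_ne_zero, OfNat.ofNat_ne_one, if_false]
    refine ⟨rfl, ?_, ?_⟩
    · intro k
      simp only [Machine.step, hmv, Move.shift]
      rw [getD_tail, h2, Function.update_of_ne]
      · congr 2
        push_cast
        ring
      · intro hc
        omega
    · intro k
      simp only [Machine.step, hmv, Move.shift]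
      rcases k with _ | k
      · rw [hcons0]
        have : cfg.head + 1 - 1 - ((0 : ℕ) : ℤ) = cfg.head := by push_cast; ring
        rw [this, Function.update_self]
      · rw [hcons, h3, Function.update_of_ne]
        · congr 2
          push_cast
          ring
        · intro hc
          push_cast at hc
          omega

theorem rel_init (M : Machine) (w : List (Fin (M.numSymbols + 1))) :
    Rel M (M.init w) (M.code.1, [], w.map Fin.val) := by
  refine ⟨rfl, ?_, ?_⟩
  · intro k
    simp only [Machine.init, zero_add]
    rw [if_pos (by positivity)]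
    simp only [Int.toNat_natCast]
    rcases lt_or_ge k w.length with h | h
    · simp [List.getD, h]
    · simp [List.getD, h]
  · intro k
    simp only [Machine.init]
    rw [if_neg (by omega)]
    simp

theorem rel_run (M : Machine) (w : List (Fin (M.numSymbols + 1))) (s : ℕ) :
    Rel M (M.step^[s] (M.init w)) (rawRun M.code (w.map Fin.val) s) := by
  induction s with
  | zero => exact rel_init M w
  | succ s ih =>
    unfold rawRun at ih ⊢
    rw [Function.iterate_succ_apply', Function.iterate_succ_apply']
    exact rel_step ih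

theorem rawHalt_iff (M : Machine) (w : List (Fin (M.numSymbols + 1))) (s : ℕ) :
    rawHalt M.code (w.map Fin.val) s = M.halting (M.step^[s] (M.init w)).state := by
  have h := rel_run M w s
  unfold rawHalt
  rw [h.1]
  exact getD_ofFn M.halting _ false

theorem haltsOn_iff (M : Machine) (w : List (Fin (M.numSymbols + 1))) :
    M.HaltsOn w ↔ ∃ s, rawHalt M.code (w.map Fin.val) s = true := by
  unfold Machine.HaltsOn
  simp only [rawHalt_iff]

end Vale.Agent.P113
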