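import Vale.Agent.P113.Deriv
import Vale.Agent.P113.Sim

/-! Amplitudes and computability of the field. -/

namespace Vale.Agent.P113

variable {α : Type} [Primcodable α]

/-- The real number with binary digits `h 0, h 1, …`. -/
noncomputable def hsum (h : ℕ → Bool) : ℝ := ∑' s, if h s = true then (1 / 2 : ℝ) ^ (s + 1) else 0

theorem summable_half : Summable fun s : ℕ => (1 / 2 : ℝ) ^ (s + 1) :=
  (summable_nat_add_iff 1).2 (summable_geometric_of_lt_one (by norm_num) (by norm_num))

theorem hterm_nonneg (h : ℕ → Bool) (s : ℕ) : 0 ≤ (if h s = true then (1 / 2 : ℝ) ^ (s + 1) else 0) := by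
  split_ifs <;> positivity

theorem hterm_le (h : ℕ → Bool) (s : ℕ) :
    (if h s = true then (1 / 2 : ℝ) ^ (s + 1) else 0) ≤ (1 / 2) ^ (s + 1) := by
  split_ifs
  · exact le_rfl
  · positivity

theorem summable_hterm (h : ℕ → Bool) :
    Summable fun s => if h s = true then (1 / 2 : ℝ) ^ (s + 1) else 0 :=
  Summable.of_nonneg_of_le (hterm_nonneg h) (hterm_le h) summable_half

theorem tsum_half : ∑' s : ℕ, (1 / 2 : ℝ) ^ (s + 1) = 1 := by
  have h1 : ∀ s : ℕ, (1 / 2 : ℝ) ^ (s + 1) = (1 / 2) * (1 / 2) ^ s := fun s => by rw [pow_succ]; ring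
  simp_rw [h1]
  rw [tsum_mul_left, tsum_geometric_of_lt_one (by norm_num) (by norm_num)]
  norm_num

theorem hsum_nonneg (h : ℕ → Bool) : 0 ≤ hsum h := tsum_nonneg (hterm_nonneg h)

theorem hsum_le_one (h : ℕ → Bool) : hsum h ≤ 1 := by
  rw [← tsum_half]
  exact (summable_hterm h).tsum_le_tsum (hterm_le h) summable_half

theorem hsum_eq_zero {h : ℕ → Bool} (h0 : ∀ s, h s = false) : hsum h = 0 := by
  simp [hsum, h0]

theorem hsum_pos {h : ℕ → Bool} {s : ℕ} (hs : h s = true) : 0 < hsum h := by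
  apply (summable_hterm h).tsum_pos (hterm_nonneg h) s
  rw [if_pos hs]
  positivity

theorem hsum_approx (h : ℕ → Bool) (k : ℕ) :
    |(∑ s ∈ Finset.range k, if h s = true then (1 / 2 : ℝ) ^ (s + 1) else 0) - hsum h| ≤
      1 / ((k : ℝ) + 1) := by
  have h1 := (summable_hterm h).sum_add_tsum_nat_add k
  have h2 : 0 ≤ ∑' i, (if h (i + k) = true then (1 / 2 : ℝ) ^ (i + k + 1) else 0) :=
    tsum_nonneg fun i => hterm_nonneg h (i + k)
  have h3 : ∑' i, (if h (i + k) = true then (1 / 2 : ℝ) ^ (i + k + 1) else 0) ≤ (1 / 2) ^ k := by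
    have h4 : ∀ i, (if h (i + k) = true then (1 / 2 : ℝ) ^ (i + k + 1) else 0) ≤
        (1 / 2) ^ k * (1 / 2) ^ (i + 1) := by
      intro i
      refine (hterm_le h (i + k)).trans (le_of_eq ?_)
      rw [← pow_add]
      congr 1
      ring
    have h5 : Summable fun i : ℕ => (1 / 2 : ℝ) ^ k * (1 / 2) ^ (i + 1) := summable_half.mul_left _
    calc ∑' i, (if h (i + k) = true then (1 / 2 : ℝ) ^ (i + k + 1) else 0)
        ≤ ∑' i : ℕ, (1 / 2 : ℝ) ^ k * (1 / 2) ^ (i + 1) :=
          ((summable_nat_add_iff k).2 (summable_hterm h)).tsum_le_tsum h4 h5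
      _ = (1 / 2) ^ k := by rw [tsum_mul_left, tsum_half, mul_one]
  have h6 : (1 / 2 : ℝ) ^ k ≤ 1 / ((k : ℝ) + 1) := by
    rw [one_div_pow]
    apply one_div_le_one_div_of_le (by positivity)
    have : k + 1 ≤ 2 ^ k := Nat.lt_two_pow_self
    exact_mod_cast this
  unfold hsum
  rw [← h1]
  have h7 : ∀ A B : ℝ, A - (A + B) = - B := fun A B => by ring
  rw [h7, abs_neg, abs_of_nonneg h2]
  exact h3.trans h6

/-- The amplitude of the `n`-th tooth for the machine with code `c`. -/
noncomputable def amp (c : MachineCode) (n : ℕ) : ℝ :=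
  hsum (rawHalt c (Denumerable.ofNat (List ℕ) n)) * (1 / (n.factorial : ℝ))

theorem abs_amp_le (c : MachineCode) (n : ℕ) : |amp c n| ≤ 1 / (n.factorial : ℝ) := by
  unfold amp
  have h0 : (0 : ℝ) ≤ 1 / (n.factorial : ℝ) := by positivity
  rw [abs_of_nonneg (mul_nonneg (hsum_nonneg _) h0)]
  calc _ ≤ 1 * (1 / (n.factorial : ℝ)) := mul_le_mul_of_nonneg_right (hsum_le_one _) h0
    _ = _ := one_mul _

theorem amp_eq_zero {M : Machine} {w : List (Fin (M.numSymbols + 1))} (h : ¬ M.HaltsOn w) :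
    amp M.code (Encodable.encode (w.map Fin.val)) = 0 := by
  rw [haltsOn_iff] at h
  push Not at h
  unfold amp
  rw [Denumerable.ofNat_encode, hsum_eq_zero fun s => by simpa using h s, zero_mul]

theorem amp_pos {M : Machine} {w : List (Fin (M.numSymbols + 1))} (h : M.HaltsOn w) :
    0 < amp M.code (Encodable.encode (w.map Fin.val)) := by
  rw [haltsOn_iff] at h
  obtain ⟨s, hs⟩ := h
  unfold amp
  rw [Denumerable.ofNat_encode]
  exact mul_pos (hsum_pos hs) (by positivity)

theorem CF.amp {c : α → MachineCode} {n : α → ℕ} (hc : Computable c) (hn : Computable n) :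
    CF fun a => amp (c a) (n a) := by
  have hl : Computable fun p : α × ℕ => Denumerable.ofNat (List ℕ) (n p.1) :=
    (Computable.ofNat (List ℕ)).comp (hn.comp Computable.fst)
  have hcc : Computable fun p : α × ℕ => c p.1 := hc.comp Computable.fst
  have hh : Computable fun p : α × ℕ =>
      rawHalt (c p.1) (Denumerable.ofNat (List ℕ) (n p.1)) p.2 := by
    have := primrec_rawHalt.to_comp.comp ((hcc.pair hl).pair Computable.snd)
    exact this.of_eq fun p => rfl
  have hhalf : RF fun p : α × ℕ => (1 / 2 : ℝ) ^ (p.2 + 1) := by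
    have h1 : RF fun _ : α × ℕ => (1 / 2 : ℝ) :=
      ((RF.constNat 1).div (RF.constNat 2)).congr fun _ => by norm_num
    exact h1.pow (csucc Computable.snd)
  have hterm : RF fun p : α × ℕ =>
      if rawHalt (c p.1) (Denumerable.ofNat (List ℕ) (n p.1)) p.2 = true
        then (1 / 2 : ℝ) ^ (p.2 + 1) else 0 :=
    (RF.ite hh hhalf (RF.constNat 0)).congr fun p => by simp
  have hterm' : RF fun q : (α × ℕ) × ℕ =>
      if rawHalt (c q.1.1) (Denumerable.ofNat (List ℕ) (n q.1.1)) q.2 = true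
        then (1 / 2 : ℝ) ^ (q.2 + 1) else 0 :=
    hterm.comp ((Computable.fst.comp Computable.fst).pair Computable.snd)
  have hsumRF : RF fun p : α × ℕ => ∑ s ∈ Finset.range p.2,
      if rawHalt (c p.1) (Denumerable.ofNat (List ℕ) (n p.1)) s = true
        then (1 / 2 : ℝ) ^ (s + 1) else 0 :=
    RF.sum hterm' Computable.snd
  have hlim : CF fun a => hsum (rawHalt (c a) (Denumerable.ofNat (List ℕ) (n a))) :=
    CF.limit hsumRF.toCF fun a k => hsum_approx _ k
  have hfac : RF fun a => 1 / ((n a).factorial : ℝ) :=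
    ((RF.constNat 1).div (RF.nat (computable_factorial hn))).congr fun a => by simp
  exact hlim.mul hfac.toCF

theorem RF.scl {n : α → ℕ} (hn : Computable n) : RF fun a => scl (n a) := by
  have h16 : RF fun a : α => (((16 : ℕ) : ℝ)) ^ (n a + 1) := (RF.constNat 16).pow (csucc hn)
  exact (h16.div (RF.constNat 15)).congr fun a => by simp [Vale.Agent.P113.scl]

theorem RF.exists_denominator {φ : α → ℝ} (h : RF φ) : ∃ N : α → ℕ, Computable N ∧
    ∀ a, φ a ≤ 0 ∨ 1 < 16 ^ N a * φ a := by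
  obtain ⟨g, hg, h⟩ := h
  refine ⟨fun a => (g a).2.2 + 1, csucc (Computable.snd.comp (Computable.snd.comp hg)),
    fun a => ?_⟩
  rw [← h a]
  unfold ratVal
  have h3 : (0 : ℝ) < ((g a).2.2 : ℝ) + 1 := by positivity
  rcases le_or_gt (g a).1 (g a).2.1 with hle | hlt
  · left
    rw [div_le_iff₀ h3, zero_mul, sub_nonpos, Nat.cast_le]
    exact hle
  · right
    have h4 : (1 : ℝ) ≤ ((g a).1 : ℝ) - (g a).2.1 := by
      have : ((g a).2.1 : ℝ) + 1 ≤ (g a).1 := by exact_mod_cast hlt
      linarith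
    have h5 : ((g a).2.2 : ℝ) + 1 < 16 ^ ((g a).2.2 + 1) := by
      have : (g a).2.2 + 1 < 16 ^ ((g a).2.2 + 1) := Nat.lt_pow_self (by norm_num)
      exact_mod_cast this
    rw [mul_div_assoc', lt_div_iff₀ h3]
    nlinarith

theorem CF.iterComb {c : α → MachineCode} (hc : Computable c) {φ : α → ℝ} (hφ : RF φ)
    {k : α → ℕ} (hk : Computable k) :
    CF fun a => iteratedDeriv (k a) (comb (Vale.Agent.P113.amp (c a))) (φ a) := by
  obtain ⟨N, hN, hN'⟩ := hφ.exists_denominator
  have hc1 : Computable fun p : α × ℕ => c p.1 := hc.comp Computable.fst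
  have hk1 : Computable fun p : α × ℕ => k p.1 := hk.comp Computable.fst
  have hA : CF fun p : α × ℕ => Vale.Agent.P113.amp (c p.1) p.2 := by
    exact CF.amp (c := fun p : α × ℕ => c p.1) (n := fun p : α × ℕ => p.2) hc1 Computable.snd
  have hS : RF fun p : α × ℕ => Vale.Agent.P113.scl p.2 := by
    exact RF.scl (n := fun p : α × ℕ => p.2) Computable.snd
  have hSp : CF fun p : α × ℕ => Vale.Agent.P113.scl p.2 ^ k p.1 := by
    exact (RF.pow hS hk1).toCF
  have h15 : RF fun _ : α × ℕ => (-(1 / 15) : ℝ) :=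
    ((RF.constNat 1).div (RF.constNat 15)).neg.congr fun _ => by norm_num
  have harg : RF fun p : α × ℕ => Vale.Agent.P113.scl p.2 * φ p.1 + (-(1 / 15)) := by
    exact (hS.mul (hφ.comp Computable.fst)).add h15
  have hB : CF fun p : α × ℕ =>
      iteratedDeriv (k p.1) bump (Vale.Agent.P113.scl p.2 * φ p.1 + (-(1 / 15))) := by
    exact CF.iterBump (φ := fun p : α × ℕ => Vale.Agent.P113.scl p.2 * φ p.1 + (-(1 / 15)))
      (k := fun p : α × ℕ => k p.1) harg hk1
  have h1 : CF fun p : α × ℕ => Vale.Agent.P113.amp (c p.1) p.2 *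
      (Vale.Agent.P113.scl p.2 ^ k p.1 *
        iteratedDeriv (k p.1) bump (Vale.Agent.P113.scl p.2 * φ p.1 + (-(1 / 15)))) := by
    exact hA.mul (hSp.mul hB)
  have h2 : CF fun a => ∑ i ∈ Finset.range (N a), Vale.Agent.P113.amp (c a) i *
      (Vale.Agent.P113.scl i ^ k a *
        iteratedDeriv (k a) bump (Vale.Agent.P113.scl i * φ a + (-(1 / 15)))) := by
    exact CF.sum h1 hN
  refine CF.congr h2 ?_
  intro a
  exact (iteratedDeriv_comb (abs_amp_le (c a)) (hN' a) (k a)).symm

theorem CF.iterProfile {c : α → MachineCode} (hc : Computable c) {φ : α → ℝ} (hφ : RF φ)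
    {k : α → ℕ} (hk : Computable k) :
    CF fun a => iteratedDeriv (k a) (profile (Vale.Agent.P113.amp (c a))) (φ a) := by
  have h1 : CF fun a => iteratedDeriv (k a) (comb (Vale.Agent.P113.amp (c a)))
      (Int.fract (φ a)) := by
    exact CF.iterComb (φ := fun a => Int.fract (φ a)) hc hφ.fract hk
  refine CF.congr h1 ?_
  intro a
  exact (iteratedDeriv_profile (abs_amp_le (c a)) (k a) (φ a)).symm

theorem CF.iterPulse {φ : α → ℝ} (hφ : RF φ) {k : α → ℕ} (hk : Computable k) :
    CF fun a => iteratedDeriv (k a) pulse (φ a) := by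
  have h0 : RF fun a => 1 - φ a := ((RF.constNat 1).sub hφ).congr fun a => by simp
  obtain ⟨d, hd, hd'⟩ := h0.nonpos
  have h1 : CF fun a => iteratedDeriv (k a) bump (Int.fract (φ a)) := by
    exact CF.iterBump (φ := fun a => Int.fract (φ a)) hφ.fract hk
  have h2 := CF.ite hd h1 (RF.constNat 0).toCF
  refine CF.congr h2 ?_
  intro a
  rw [iteratedDeriv_pulse]
  by_cases h : 1 ≤ φ a
  · have : d a = true := (hd' a).2 (by linarith)
    simp [h, this]
  · have : ¬ d a = true := fun h' => h (by have := (hd' a).1 h'; linarith)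
    simp [h, this]

end Vale.Agent.P113
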