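import Mathlib

/-! Smooth gluing of functions supported in `[0,1]`, and a concrete bump. -/

namespace Vale.Agent.P113

open Set Filter Topology

/-- `F` vanishes outside `(0,1)`. -/
def VanishesOff (F : ℝ → ℝ) : Prop := ∀ t, (t ≤ 0 ∨ 1 ≤ t) → F t = 0

theorem VanishesOff.iteratedDeriv {F : ℝ → ℝ} (hF : ContDiff ℝ (⊤ : ℕ∞) F) (h : VanishesOff F)
    (k : ℕ) : VanishesOff (iteratedDeriv k F) := by
  induction k with
  | zero => simpa using h
  | succ k ih =>
    have hc : Continuous (_root_.iteratedDeriv (k + 1) F) :=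
      hF.continuous_iteratedDeriv (k + 1) (by exact_mod_cast le_top)
    have hcl : IsClosed {t | _root_.iteratedDeriv (k + 1) F t = 0} :=
      isClosed_singleton.preimage hc
    have h1 : Iio (0 : ℝ) ⊆ {t | _root_.iteratedDeriv (k + 1) F t = 0} := by
      intro t ht
      have : _root_.iteratedDeriv k F =ᶠ[𝓝 t] fun _ => (0 : ℝ) := by
        filter_upwards [Iio_mem_nhds ht] with s hs
        exact ih s (Or.inl (le_of_lt hs))
      simp only [mem_ofPred_eq, iteratedDeriv_succ]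
      rw [this.deriv_eq]
      simp
    have h2 : Ioi (1 : ℝ) ⊆ {t | _root_.iteratedDeriv (k + 1) F t = 0} := by
      intro t ht
      have : _root_.iteratedDeriv k F =ᶠ[𝓝 t] fun _ => (0 : ℝ) := by
        filter_upwards [Ioi_mem_nhds ht] with s hs
        exact ih s (Or.inr (le_of_lt hs))
      simp only [mem_ofPred_eq, iteratedDeriv_succ]
      rw [this.deriv_eq]
      simp
    intro t ht
    rcases ht with ht | ht
    · have := hcl.closure_subset_iff.2 h1
      rw [closure_Iio] at this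
      exact this ht
    · have := hcl.closure_subset_iff.2 h2
      rw [closure_Ioi] at this
      exact this ht

/-- Gluing of the translates of `F` with weights `e`. -/
noncomputable def glue (e : ℤ → ℝ) (F : ℝ → ℝ) (t : ℝ) : ℝ := e ⌊t⌋ * F (Int.fract t)

theorem glue_eventuallyEq (e : ℤ → ℝ) {F : ℝ → ℝ} (h : VanishesOff F) (t0 : ℝ) :
    glue e F =ᶠ[𝓝 t0] fun t => e ⌊t0⌋ * F (t - ⌊t0⌋) + e (⌊t0⌋ - 1) * F (t - (⌊t0⌋ - 1)) := by
  have h1 : (⌊t0⌋ : ℝ) - 1 < t0 := by
    have := Int.floor_le t0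
    linarith
  have h2 : t0 < (⌊t0⌋ : ℝ) + 1 := Int.lt_floor_add_one t0
  filter_upwards [Ioo_mem_nhds h1 h2] with t ht
  unfold glue
  rcases le_or_gt (⌊t0⌋ : ℝ) t with hle | hlt
  · have hf : ⌊t⌋ = ⌊t0⌋ := by
      rw [Int.floor_eq_iff]
      exact ⟨hle, ht.2⟩
    have hv : F (t - (⌊t0⌋ - 1)) = 0 := h _ (Or.inr (by linarith))
    rw [hv, hf, Int.fract, hf]
    simp
  · have hf : ⌊t⌋ = ⌊t0⌋ - 1 := by
      rw [Int.floor_eq_iff]
      push_cast
      exact ⟨by linarith [ht.1], by linarith⟩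
    have hv : F (t - ⌊t0⌋) = 0 := h _ (Or.inl (by linarith))
    rw [hv, hf, Int.fract, hf]
    simp

theorem contDiff_glue (e : ℤ → ℝ) {F : ℝ → ℝ} (hF : ContDiff ℝ (⊤ : ℕ∞) F) (h : VanishesOff F) :
    ContDiff ℝ (⊤ : ℕ∞) (glue e F) := by
  rw [contDiff_iff_contDiffAt]
  intro t0
  refine ContDiffAt.congr_of_eventuallyEq ?_ (glue_eventuallyEq e h t0)
  apply ContDiff.contDiffAt
  fun_prop

theorem iteratedDeriv_glue (e : ℤ → ℝ) {F : ℝ → ℝ} (hF : ContDiff ℝ (⊤ : ℕ∞) F)
    (h : VanishesOff F) (k : ℕ) : iteratedDeriv k (glue e F) = glue e (iteratedDeriv k F) := by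
  induction k with
  | zero => simp
  | succ k ih =>
    rw [iteratedDeriv_succ, ih]
    funext t0
    have hv : VanishesOff (iteratedDeriv k F) := h.iteratedDeriv hF k
    have hv' : VanishesOff (iteratedDeriv (k + 1) F) := h.iteratedDeriv hF (k + 1)
    rw [(glue_eventuallyEq e hv t0).deriv_eq]
    have hd : Differentiable ℝ (iteratedDeriv k F) :=
      hF.differentiable_iteratedDeriv k (by exact_mod_cast WithTop.coe_lt_top _)
    have e1 : HasDerivAt (fun t => iteratedDeriv k F (t - ⌊t0⌋))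
        (iteratedDeriv (k + 1) F (t0 - ⌊t0⌋)) t0 := by
      have := (hd (t0 - ⌊t0⌋)).hasDerivAt.comp_sub_const t0 (⌊t0⌋ : ℝ)
      rwa [← iteratedDeriv_succ] at this
    have e2 : HasDerivAt (fun t => iteratedDeriv k F (t - (⌊t0⌋ - 1)))
        (iteratedDeriv (k + 1) F (t0 - (⌊t0⌋ - 1))) t0 := by
      have := (hd (t0 - (⌊t0⌋ - 1))).hasDerivAt.comp_sub_const t0 ((⌊t0⌋ : ℝ) - 1)
      rwa [← iteratedDeriv_succ] at this
    rw [((e1.const_mul (e ⌊t0⌋)).fun_add (e2.const_mul (e (⌊t0⌋ - 1)))).deriv]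
    have : iteratedDeriv (k + 1) F (t0 - (⌊t0⌋ - 1)) = 0 := by
      apply hv'
      right
      have := Int.floor_le t0
      linarith
    rw [this, mul_zero, add_zero]
    rfl

theorem glue_add_int (e : ℤ → ℝ) (F : ℝ → ℝ) (m : ℤ) (t : ℝ) (he : e (⌊t⌋ + m) = e ⌊t⌋) :
    glue e F (t + m) = glue e F t := by
  simp [glue, he]

/-- The basic bump. -/
noncomputable def bump (t : ℝ) : ℝ := expNegInvGlue t * expNegInvGlue (1 - t)

theorem contDiff_bump : ContDiff ℝ (⊤ : ℕ∞) bump := by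
  unfold bump
  have h : ContDiff ℝ (⊤ : ℕ∞) expNegInvGlue := expNegInvGlue.contDiff
  exact h.mul (h.comp (contDiff_const.sub contDiff_id))

theorem bump_vanishesOff : VanishesOff bump := by
  intro t ht
  unfold bump
  rcases ht with ht | ht
  · rw [expNegInvGlue.zero_of_nonpos ht, zero_mul]
  · rw [expNegInvGlue.zero_of_nonpos (sub_nonpos.2 ht), mul_zero]

theorem bump_pos {t : ℝ} (h0 : 0 < t) (h1 : t < 1) : 0 < bump t :=
  mul_pos (expNegInvGlue.pos_of_pos h0) (expNegInvGlue.pos_of_pos (sub_pos.2 h1))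

theorem bump_nonneg (t : ℝ) : 0 ≤ bump t :=
  mul_nonneg (expNegInvGlue.nonneg _) (expNegInvGlue.nonneg _)

theorem bump_eq_exp {t : ℝ} (h0 : 0 < t) (h1 : t < 1) :
    bump t = Real.exp (-(t * (1 - t))⁻¹) := by
  have h1' : 0 < 1 - t := by linarith
  rw [bump, expNegInvGlue, expNegInvGlue, if_neg (not_le.2 h0), if_neg (not_le.2 h1'),
    ← Real.exp_add]
  congr 1
  field_simp
  ring

theorem bump_iteratedDeriv_bounded (k : ℕ) : ∃ C : ℝ, 0 ≤ C ∧ ∀ t, |iteratedDeriv k bump t| ≤ C := by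
  have hc : Continuous (iteratedDeriv k bump) :=
    contDiff_bump.continuous_iteratedDeriv k (by exact_mod_cast le_top)
  obtain ⟨C, hC⟩ := (isCompact_Icc (a := (0 : ℝ)) (b := 1)).exists_bound_of_continuousOn
    hc.continuousOn
  refine ⟨max C 0, le_max_right _ _, fun t => ?_⟩
  by_cases ht : t ∈ Icc (0 : ℝ) 1
  · exact (hC t ht).trans (le_max_left _ _)
  · have : iteratedDeriv k bump t = 0 := by
      apply bump_vanishesOff.iteratedDeriv contDiff_bump k
      rw [mem_Icc, not_and_or, not_le, not_le] at ht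
      rcases ht with ht | ht
      · exact Or.inl ht.le
      · exact Or.inr ht.le
    rw [this, abs_zero]
    exact le_max_right _ _

end Vale.Agent.P113
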