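import Vale.Agent.P113.Defs

/-! A small library of computable families of real numbers. -/

namespace Vale.Agent.P113

variable {α β : Type} [Primcodable α] [Primcodable β]

/-! ### Computable functions to `ℕ` -/

theorem cadd {f g : α → ℕ} (hf : Computable f) (hg : Computable g) :
    Computable fun a => f a + g a := Primrec.nat_add.to_comp.comp hf hg

theorem cmul {f g : α → ℕ} (hf : Computable f) (hg : Computable g) :
    Computable fun a => f a * g a := Primrec.nat_mul.to_comp.comp hf hg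

theorem csub {f g : α → ℕ} (hf : Computable f) (hg : Computable g) :
    Computable fun a => f a - g a := Primrec.nat_sub.to_comp.comp hf hg

theorem cmod {f g : α → ℕ} (hf : Computable f) (hg : Computable g) :
    Computable fun a => f a % g a := Primrec.nat_mod.to_comp.comp hf hg

theorem cdiv {f g : α → ℕ} (hf : Computable f) (hg : Computable g) :
    Computable fun a => f a / g a := Primrec.nat_div.to_comp.comp hf hg

theorem csucc {f : α → ℕ} (hf : Computable f) : Computable fun a => f a + 1 :=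
  Computable.succ.comp hf

theorem cle {f g : α → ℕ} (hf : Computable f) (hg : Computable g) :
    Computable fun a => decide (f a ≤ g a) :=
  (Primrec.nat_le.decide.to_comp).comp hf hg

/-! ### Operations on codes of rationals -/

/-- Addition of codes. -/
def radd (x y : RatCode) : RatCode :=
  (x.1 * (y.2.2 + 1) + y.1 * (x.2.2 + 1), x.2.1 * (y.2.2 + 1) + y.2.1 * (x.2.2 + 1),
    x.2.2 * y.2.2 + x.2.2 + y.2.2)

/-- Multiplication of codes. -/
def rmul (x y : RatCode) : RatCode :=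
  (x.1 * y.1 + x.2.1 * y.2.1, x.1 * y.2.1 + x.2.1 * y.1, x.2.2 * y.2.2 + x.2.2 + y.2.2)

theorem ratVal_radd (x y : RatCode) : ratVal (radd x y) = ratVal x + ratVal y := by
  unfold ratVal radd
  have h1 : (x.2.2 : ℝ) + 1 ≠ 0 := by positivity
  have h2 : (y.2.2 : ℝ) + 1 ≠ 0 := by positivity
  have h3 : ((x.2.2 * y.2.2 + x.2.2 + y.2.2 : ℕ) : ℝ) + 1 =
      ((x.2.2 : ℝ) + 1) * ((y.2.2 : ℝ) + 1) := by
    push_cast
    ring
  simp only [h3]
  push_cast
  field_simp
  ring

theorem ratVal_rmul (x y : RatCode) : ratVal (rmul x y) = ratVal x * ratVal y := by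
  unfold ratVal rmul
  have h1 : (x.2.2 : ℝ) + 1 ≠ 0 := by positivity
  have h2 : (y.2.2 : ℝ) + 1 ≠ 0 := by positivity
  have h3 : ((x.2.2 * y.2.2 + x.2.2 + y.2.2 : ℕ) : ℝ) + 1 =
      ((x.2.2 : ℝ) + 1) * ((y.2.2 : ℝ) + 1) := by
    push_cast
    ring
  simp only [h3]
  push_cast
  field_simp
  ring

theorem computable_radd {f g : α → RatCode} (hf : Computable f) (hg : Computable g) :
    Computable fun a => radd (f a) (g a) := by
  have f1 := Computable.fst.comp hf
  have f2 := Computable.fst.comp (Computable.snd.comp hf)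
  have f3 := Computable.snd.comp (Computable.snd.comp hf)
  have g1 := Computable.fst.comp hg
  have g2 := Computable.fst.comp (Computable.snd.comp hg)
  have g3 := Computable.snd.comp (Computable.snd.comp hg)
  exact (cadd (cmul f1 (csucc g3)) (cmul g1 (csucc f3))).pair
    ((cadd (cmul f2 (csucc g3)) (cmul g2 (csucc f3))).pair
      (cadd (cadd (cmul f3 g3) f3) g3))

theorem computable_rmul {f g : α → RatCode} (hf : Computable f) (hg : Computable g) :
    Computable fun a => rmul (f a) (g a) := by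
  have f1 := Computable.fst.comp hf
  have f2 := Computable.fst.comp (Computable.snd.comp hf)
  have f3 := Computable.snd.comp (Computable.snd.comp hf)
  have g1 := Computable.fst.comp hg
  have g2 := Computable.fst.comp (Computable.snd.comp hg)
  have g3 := Computable.snd.comp (Computable.snd.comp hg)
  exact (cadd (cmul f1 g1) (cmul f2 g2)).pair
    ((cadd (cmul f1 g2) (cmul f2 g1)).pair
      (cadd (cadd (cmul f3 g3) f3) g3))

/-! ### Families of rational numbers -/

/-- `φ` is a computable family of rational numbers. -/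
def RF (φ : α → ℝ) : Prop := ∃ g : α → RatCode, Computable g ∧ ∀ a, ratVal (g a) = φ a

namespace RF

theorem congr {φ ψ : α → ℝ} (h : RF φ) (he : ∀ a, φ a = ψ a) : RF ψ := by
  obtain ⟨g, hg, h⟩ := h
  exact ⟨g, hg, fun a => (h a).trans (he a)⟩

theorem comp {φ : β → ℝ} (h : RF φ) {f : α → β} (hf : Computable f) : RF fun a => φ (f a) := by
  obtain ⟨g, hg, h⟩ := h
  exact ⟨fun a => g (f a), hg.comp hf, fun a => h (f a)⟩

theorem nat {f : α → ℕ} (hf : Computable f) : RF fun a => (f a : ℝ) :=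
  ⟨fun a => (f a, 0, 0), hf.pair ((Computable.const 0).pair (Computable.const 0)),
    fun a => by simp [ratVal]⟩

theorem code {f : α → RatCode} (hf : Computable f) : RF fun a => ratVal (f a) :=
  ⟨f, hf, fun _ => rfl⟩

theorem constNat (n : ℕ) : RF fun _ : α => (n : ℝ) := nat (Computable.const n)

theorem add {φ ψ : α → ℝ} (h1 : RF φ) (h2 : RF ψ) : RF fun a => φ a + ψ a := by
  obtain ⟨g1, hg1, h1⟩ := h1
  obtain ⟨g2, hg2, h2⟩ := h2
  exact ⟨fun a => radd (g1 a) (g2 a), computable_radd hg1 hg2,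
    fun a => by rw [ratVal_radd, h1, h2]⟩

theorem mul {φ ψ : α → ℝ} (h1 : RF φ) (h2 : RF ψ) : RF fun a => φ a * ψ a := by
  obtain ⟨g1, hg1, h1⟩ := h1
  obtain ⟨g2, hg2, h2⟩ := h2
  exact ⟨fun a => rmul (g1 a) (g2 a), computable_rmul hg1 hg2,
    fun a => by rw [ratVal_rmul, h1, h2]⟩

theorem neg {φ : α → ℝ} (h1 : RF φ) : RF fun a => - φ a := by
  obtain ⟨g, hg, h⟩ := h1
  refine ⟨fun a => ((g a).2.1, (g a).1, (g a).2.2), ?_, fun a => ?_⟩
  · exact (Computable.fst.comp (Computable.snd.comp hg)).pair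
      ((Computable.fst.comp hg).pair (Computable.snd.comp (Computable.snd.comp hg)))
  · beta_reduce
    rw [← h a]
    unfold ratVal
    ring

theorem sub {φ ψ : α → ℝ} (h1 : RF φ) (h2 : RF ψ) : RF fun a => φ a - ψ a :=
  (h1.add h2.neg).congr fun a => by ring

theorem ite {φ ψ : α → ℝ} {c : α → Bool} (hc : Computable c) (h1 : RF φ) (h2 : RF ψ) :
    RF fun a => if c a = true then φ a else ψ a := by
  obtain ⟨g1, hg1, h1⟩ := h1
  obtain ⟨g2, hg2, h2⟩ := h2
  refine ⟨fun a => bif c a then g1 a else g2 a, Computable.cond hc hg1 hg2, fun a => ?_⟩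
  beta_reduce
  cases hca : c a
  · simp [h2]
  · simp [h1]

theorem nonpos {φ : α → ℝ} (h : RF φ) : ∃ d : α → Bool, Computable d ∧
    ∀ a, (d a = true ↔ φ a ≤ 0) := by
  obtain ⟨g, hg, h⟩ := h
  refine ⟨fun a => decide ((g a).1 ≤ (g a).2.1),
    cle (Computable.fst.comp hg) (Computable.fst.comp (Computable.snd.comp hg)), fun a => ?_⟩
  rw [decide_eq_true_iff, ← h a]
  unfold ratVal
  have h3 : (0 : ℝ) < ((g a).2.2 : ℝ) + 1 := by positivity
  rw [div_le_iff₀ h3, zero_mul, sub_nonpos, Nat.cast_le]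

theorem inv {φ : α → ℝ} (h1 : RF φ) : RF fun a => (φ a)⁻¹ := by
  obtain ⟨g, hg, h⟩ := h1
  have g1 := Computable.fst.comp hg
  have g2 := Computable.fst.comp (Computable.snd.comp hg)
  have g3 := Computable.snd.comp (Computable.snd.comp hg)
  -- numerator sign decides
  have hpos : RF fun a => (((g a).2.2 + 1 : ℕ) : ℝ) * (((((g a).1 - (g a).2.1 - 1 : ℕ) : ℝ) + 1)⁻¹) := by
    refine ⟨fun a => ((g a).2.2 + 1, 0, (g a).1 - (g a).2.1 - 1), ?_, fun a => ?_⟩
    · exact (csucc g3).pair ((Computable.const 0).pair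
        (csub (csub g1 g2) (Computable.const 1)))
    · unfold ratVal
      simp
      ring
  have hneg : RF fun a => -((((g a).2.2 + 1 : ℕ) : ℝ) *
      (((((g a).2.1 - (g a).1 - 1 : ℕ) : ℝ) + 1)⁻¹)) := by
    refine ⟨fun a => (0, (g a).2.2 + 1, (g a).2.1 - (g a).1 - 1), ?_, fun a => ?_⟩
    · exact (Computable.const 0).pair ((csucc g3).pair
        (csub (csub g2 g1) (Computable.const 1)))
    · unfold ratVal
      simp
      ring
  have c1 : Computable fun a => decide ((g a).1 ≤ (g a).2.1) := cle g1 g2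
  have c2 : Computable fun a => decide ((g a).2.1 ≤ (g a).1) := cle g2 g1
  refine (ite c1 (ite c2 (constNat 0) hneg) hpos).congr fun a => ?_
  rw [← h a]
  unfold ratVal
  have h3 : (0 : ℝ) < ((g a).2.2 : ℝ) + 1 := by positivity
  by_cases e1 : (g a).1 ≤ (g a).2.1
  · by_cases e2 : (g a).2.1 ≤ (g a).1
    · have : (g a).1 = (g a).2.1 := le_antisymm e1 e2
      simp [this]
    · have hlt : (g a).1 < (g a).2.1 := not_le.1 e2
      have e3 : (((g a).2.1 - (g a).1 - 1 : ℕ) : ℝ) + 1 = ((g a).2.1 : ℝ) - (g a).1 := by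
        rw [Nat.sub_sub, Nat.cast_sub (by omega)]
        push_cast
        ring
      have e4 : (0 : ℝ) < ((g a).2.1 : ℝ) - (g a).1 := by
        have : ((g a).1 : ℝ) < (g a).2.1 := by exact_mod_cast hlt
        linarith
      simp only [e1, e2, decide_true, decide_false, if_true, Bool.false_eq_true, if_false]
      rw [e3]
      have e5 : ((g a).1 : ℝ) - (g a).2.1 ≠ 0 := by
        intro h0
        linarith
      push_cast
      field_simp
      ring
  · have hlt : (g a).2.1 < (g a).1 := not_le.1 e1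
    have e3 : (((g a).1 - (g a).2.1 - 1 : ℕ) : ℝ) + 1 = ((g a).1 : ℝ) - (g a).2.1 := by
      rw [Nat.sub_sub, Nat.cast_sub (by omega)]
      push_cast
      ring
    have e4 : (0 : ℝ) < ((g a).1 : ℝ) - (g a).2.1 := by
      have : ((g a).2.1 : ℝ) < (g a).1 := by exact_mod_cast hlt
      linarith
    simp only [e1, decide_false, Bool.false_eq_true, if_false]
    rw [e3]
    push_cast
    field_simp

theorem div {φ ψ : α → ℝ} (h1 : RF φ) (h2 : RF ψ) : RF fun a => φ a / ψ a :=
  (h1.mul h2.inv).congr fun a => by rw [div_eq_mul_inv]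

theorem pow {φ : α → ℝ} (h1 : RF φ) {n : α → ℕ} (hn : Computable n) : RF fun a => φ a ^ n a := by
  obtain ⟨g, hg, h⟩ := h1
  refine ⟨fun a => Nat.rec (1, 0, 0) (fun _ IH => rmul IH (g a)) (n a), ?_, fun a => ?_⟩
  · refine Computable.nat_rec (h := fun a (p : ℕ × RatCode) => rmul p.2 (g a)) hn
      (Computable.const (1, 0, 0)) ?_
    exact computable_rmul (Computable.snd.comp Computable.snd) (hg.comp Computable.fst)
  · beta_reduce
    induction n a with
    | zero => simp [ratVal]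
    | succ m ih =>
      have : ratVal (rmul (Nat.rec (1, 0, 0) (fun _ IH => rmul IH (g a)) m) (g a)) =
          φ a ^ (m + 1) := by
        rw [ratVal_rmul, ih, h a, pow_succ]
      exact this

theorem sum {φ : α × ℕ → ℝ} (h1 : RF φ) {N : α → ℕ} (hN : Computable N) :
    RF fun a => ∑ i ∈ Finset.range (N a), φ (a, i) := by
  obtain ⟨g, hg, h⟩ := h1
  refine ⟨fun a => Nat.rec (0, 0, 0) (fun y IH => radd IH (g (a, y))) (N a), ?_, fun a => ?_⟩
  · refine Computable.nat_rec (h := fun a (p : ℕ × RatCode) => radd p.2 (g (a, p.1))) hN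
      (Computable.const (0, 0, 0)) ?_
    exact computable_radd (Computable.snd.comp Computable.snd)
      (hg.comp (Computable.fst.pair (Computable.fst.comp Computable.snd)))
  · beta_reduce
    induction N a with
    | zero => simp [ratVal]
    | succ m ih =>
      have : ratVal (radd (Nat.rec (0, 0, 0) (fun y IH => radd IH (g (a, y))) m) (g (a, m))) =
          ∑ i ∈ Finset.range (m + 1), φ (a, i) := by
        rw [ratVal_radd, ih, h (a, m), Finset.sum_range_succ]
      exact this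

theorem bound {φ : α → ℝ} (h : RF φ) : ∃ B : α → ℕ, Computable B ∧ ∀ a, |φ a| ≤ B a := by
  obtain ⟨g, hg, h⟩ := h
  refine ⟨fun a => (g a).1 + (g a).2.1, cadd (Computable.fst.comp hg)
    (Computable.fst.comp (Computable.snd.comp hg)), fun a => ?_⟩
  rw [← h a]
  unfold ratVal
  have h3 : (1 : ℝ) ≤ ((g a).2.2 : ℝ) + 1 := by
    have : (0 : ℝ) ≤ ((g a).2.2 : ℝ) := Nat.cast_nonneg _
    linarith
  have e1 : (0 : ℝ) ≤ ((g a).1 : ℝ) := Nat.cast_nonneg _
  have e2 : (0 : ℝ) ≤ ((g a).2.1 : ℝ) := Nat.cast_nonneg _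
  rw [abs_div, abs_of_pos (by linarith : (0 : ℝ) < ((g a).2.2 : ℝ) + 1)]
  have e3 : |((g a).1 : ℝ) - (g a).2.1| ≤ (g a).1 + (g a).2.1 := by
    rw [abs_le]
    constructor <;> linarith
  push_cast
  exact (div_le_self (abs_nonneg _) h3).trans e3

theorem fract {φ : α → ℝ} (h : RF φ) : RF fun a => Int.fract (φ a) := by
  obtain ⟨g, hg, h⟩ := h
  have g1 := Computable.fst.comp hg
  have g2 := Computable.fst.comp (Computable.snd.comp hg)
  have g3 := Computable.snd.comp (Computable.snd.comp hg)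
  refine ⟨fun a => (((g a).1 + (g a).2.1 * (g a).2.2) % ((g a).2.2 + 1), 0, (g a).2.2),
    (cmod (cadd g1 (cmul g2 g3)) (csucc g3)).pair ((Computable.const 0).pair g3), fun a => ?_⟩
  beta_reduce
  rw [← h a]
  unfold ratVal
  have h3 : ((g a).2.2 : ℝ) + 1 ≠ 0 := by positivity
  have e1 : (((g a).1 : ℝ) - (g a).2.1) / ((g a).2.2 + 1) =
      ((((g a).1 + (g a).2.1 * (g a).2.2 : ℕ) : ℝ) / (((g a).2.2 + 1 : ℕ) : ℝ)) -
        (((g a).2.1 : ℤ) : ℝ) := by
    push_cast
    field_simp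
    ring
  rw [e1, Int.fract_sub_intCast, Int.fract_div_natCast_eq_div_natCast_mod]
  push_cast
  simp

end RF

/-! ### Computable families of real numbers -/

/-- `φ` is a computable family of real numbers. -/
def CF (φ : α → ℝ) : Prop :=
  ∃ ψ : α × ℕ → ℝ, RF ψ ∧ ∀ a k, |ψ (a, k) - φ a| ≤ 1 / ((k : ℝ) + 1)

theorem RF.toCF {φ : α → ℝ} (h : RF φ) : CF φ :=
  ⟨fun p => φ p.1, h.comp Computable.fst, fun a k => by
    simp only [sub_self, abs_zero]
    positivity⟩

namespace CF

theorem congr {φ ψ : α → ℝ} (h : CF φ) (he : ∀ a, φ a = ψ a) : CF ψ := by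
  have : φ = ψ := funext he
  rwa [← this]

theorem comp {φ : β → ℝ} (h : CF φ) {f : α → β} (hf : Computable f) : CF fun a => φ (f a) := by
  obtain ⟨ψ, hψ, h⟩ := h
  exact ⟨fun p => ψ (f p.1, p.2),
    hψ.comp ((hf.comp Computable.fst).pair Computable.snd), fun a k => h (f a) k⟩

/-- Effective limits. -/
theorem limit {φ : α → ℝ} {ψ : α × ℕ → ℝ} (hψ : CF ψ)
    (h : ∀ a k, |ψ (a, k) - φ a| ≤ 1 / ((k : ℝ) + 1)) : CF φ := by
  obtain ⟨χ, hχ, h'⟩ := hψ
  refine ⟨fun p => χ ((p.1, 2 * p.2 + 1), 2 * p.2 + 1), ?_, fun a k => ?_⟩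
  · have hk : Computable fun p : α × ℕ => 2 * p.2 + 1 :=
      csucc (cmul (Computable.const 2) Computable.snd)
    exact hχ.comp ((Computable.fst.pair hk).pair hk)
  · have h1 := h' (a, 2 * k + 1) (2 * k + 1)
    have h2 := h a (2 * k + 1)
    have h3 : (1 : ℝ) / (((2 * k + 1 : ℕ) : ℝ) + 1) = 1 / ((k : ℝ) + 1) / 2 := by
      push_cast
      rw [div_div]
      congr 1
      ring
    rw [h3] at h1 h2
    have h4 := abs_sub_le (χ ((a, 2 * k + 1), 2 * k + 1)) (ψ (a, 2 * k + 1)) (φ a)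
    simp only []
    linarith

theorem add {φ ψ : α → ℝ} (h1 : CF φ) (h2 : CF ψ) : CF fun a => φ a + ψ a := by
  obtain ⟨f, hf, h1⟩ := h1
  obtain ⟨g, hg, h2⟩ := h2
  have hk : Computable fun p : α × ℕ => (p.1, 2 * p.2 + 1) :=
    Computable.fst.pair (csucc (cmul (Computable.const 2) Computable.snd))
  refine ⟨fun p => f (p.1, 2 * p.2 + 1) + g (p.1, 2 * p.2 + 1), (hf.comp hk).add (hg.comp hk),
    fun a k => ?_⟩
  have e1 := h1 a (2 * k + 1)
  have e2 := h2 a (2 * k + 1)
  have h3 : (1 : ℝ) / (((2 * k + 1 : ℕ) : ℝ) + 1) = 1 / ((k : ℝ) + 1) / 2 := by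
    push_cast
    rw [div_div]
    congr 1
    ring
  rw [h3] at e1 e2
  have e3 : f (a, 2 * k + 1) + g (a, 2 * k + 1) - (φ a + ψ a) =
      (f (a, 2 * k + 1) - φ a) + (g (a, 2 * k + 1) - ψ a) := by ring
  simp only []
  rw [e3]
  have e4 := abs_add_le (f (a, 2 * k + 1) - φ a) (g (a, 2 * k + 1) - ψ a)
  linarith

theorem neg {φ : α → ℝ} (h1 : CF φ) : CF fun a => - φ a := by
  obtain ⟨f, hf, h1⟩ := h1
  refine ⟨fun p => - f p, hf.neg, fun a k => ?_⟩
  have e3 : - f (a, k) - - φ a = - (f (a, k) - φ a) := by ring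
  simp only []
  rw [e3, abs_neg]
  exact h1 a k

theorem sub {φ ψ : α → ℝ} (h1 : CF φ) (h2 : CF ψ) : CF fun a => φ a - ψ a :=
  (h1.add h2.neg).congr fun a => by ring

theorem bound {φ : α → ℝ} (h : CF φ) : ∃ B : α → ℕ, Computable B ∧ ∀ a, |φ a| ≤ B a := by
  obtain ⟨f, hf, h⟩ := h
  obtain ⟨B, hB, hB'⟩ := (hf.comp (Computable.id.pair (Computable.const 0)) :
    RF fun a : α => f (a, 0)).bound
  refine ⟨fun a => B a + 1, csucc hB, fun a => ?_⟩
  have e1 := h a 0
  have e2 := hB' a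
  have e3 := abs_sub_abs_le_abs_sub (φ a) (f (a, 0))
  rw [abs_sub_comm] at e3
  push_cast
  norm_num at e1
  linarith

theorem mul {φ ψ : α → ℝ} (h1 : CF φ) (h2 : CF ψ) : CF fun a => φ a * ψ a := by
  obtain ⟨B1, hB1, hB1'⟩ := h1.bound
  obtain ⟨B2, hB2, hB2'⟩ := h2.bound
  obtain ⟨f, hf, h1⟩ := h1
  obtain ⟨g, hg, h2⟩ := h2
  set K : α × ℕ → ℕ := fun p => (B1 p.1 + B2 p.1 + 1) * (p.2 + 1) with hKdef
  have hK : Computable K :=
    cmul (csucc (cadd (hB1.comp Computable.fst) (hB2.comp Computable.fst)))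
      (csucc Computable.snd)
  have hk : Computable fun p : α × ℕ => (p.1, K p) := Computable.fst.pair hK
  refine ⟨fun p => f (p.1, K p) * g (p.1, K p), (hf.comp hk).mul (hg.comp hk), fun a k => ?_⟩
  have e1 := h1 a (K (a, k))
  have e2 := h2 a (K (a, k))
  have b1 := hB1' a
  have b2 := hB2' a
  set D : ℝ := (B1 a : ℝ) + B2 a + 1 with hD
  have hDpos : 0 < D := by positivity
  have hKval : ((K (a, k) : ℕ) : ℝ) = D * ((k : ℝ) + 1) := by
    rw [hKdef]
    push_cast
    ring
  have hkpos : (0 : ℝ) < (k : ℝ) + 1 := by positivity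
  set δ : ℝ := 1 / (((K (a, k) : ℕ) : ℝ) + 1) with hδ
  have hδ1 : δ ≤ 1 / (D * ((k : ℝ) + 1)) := by
    rw [hδ, hKval]
    apply one_div_le_one_div_of_le (by positivity)
    linarith
  have hδ2 : δ ≤ 1 := by
    rw [hδ]
    rw [div_le_one (by positivity)]
    have : (0 : ℝ) ≤ ((K (a, k) : ℕ) : ℝ) := Nat.cast_nonneg _
    linarith
  have hδ0 : 0 ≤ δ := by rw [hδ]; positivity
  have e3 : f (a, K (a, k)) * g (a, K (a, k)) - φ a * ψ a =
      φ a * (g (a, K (a, k)) - ψ a) + (f (a, K (a, k)) - φ a) * (ψ a)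
        + (f (a, K (a, k)) - φ a) * (g (a, K (a, k)) - ψ a) := by ring
  simp only []
  rw [e3]
  calc |φ a * (g (a, K (a, k)) - ψ a) + (f (a, K (a, k)) - φ a) * (ψ a)
        + (f (a, K (a, k)) - φ a) * (g (a, K (a, k)) - ψ a)|
      ≤ |φ a * (g (a, K (a, k)) - ψ a)| + |(f (a, K (a, k)) - φ a) * (ψ a)|
        + |(f (a, K (a, k)) - φ a) * (g (a, K (a, k)) - ψ a)| := abs_add_three _ _ _
    _ ≤ B1 a * δ + δ * B2 a + δ * 1 := by
        rw [abs_mul, abs_mul, abs_mul]
        apply add_le_add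
        · apply add_le_add
          · exact mul_le_mul b1 e2 (abs_nonneg _) (Nat.cast_nonneg _)
          · exact mul_le_mul e1 b2 (abs_nonneg _) hδ0
        · exact mul_le_mul e1 (e2.trans hδ2) (abs_nonneg _) hδ0
    _ = D * δ := by rw [hD]; ring
    _ ≤ D * (1 / (D * ((k : ℝ) + 1))) := mul_le_mul_of_nonneg_left hδ1 hDpos.le
    _ = 1 / ((k : ℝ) + 1) := by field_simp

theorem ite {φ ψ : α → ℝ} {c : α → Bool} (hc : Computable c) (h1 : CF φ) (h2 : CF ψ) :
    CF fun a => if c a = true then φ a else ψ a := by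
  obtain ⟨f, hf, h1⟩ := h1
  obtain ⟨g, hg, h2⟩ := h2
  refine ⟨fun p => if c p.1 = true then f p else g p, RF.ite (hc.comp Computable.fst) hf hg,
    fun a k => ?_⟩
  simp only []
  split_ifs
  · exact h1 a k
  · exact h2 a k

theorem sum {φ : α × ℕ → ℝ} (h1 : CF φ) {N : α → ℕ} (hN : Computable N) :
    CF fun a => ∑ i ∈ Finset.range (N a), φ (a, i) := by
  obtain ⟨f, hf, h1⟩ := h1
  set K : α × ℕ → ℕ := fun p => (N p.1 + 1) * (p.2 + 1) with hKdef
  have hK : Computable K :=
    cmul (csucc (hN.comp Computable.fst)) (csucc Computable.snd)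
  have hf' : RF fun q : (α × ℕ) × ℕ => f ((q.1.1, q.2), K q.1) :=
    hf.comp (((Computable.fst.comp Computable.fst).pair Computable.snd).pair
      (hK.comp Computable.fst))
  refine ⟨fun p => ∑ i ∈ Finset.range (N p.1), f ((p.1, i), K p),
    hf'.sum (hN.comp Computable.fst), fun a k => ?_⟩
  simp only []
  rw [← Finset.sum_sub_distrib]
  have hKval : ((K (a, k) : ℕ) : ℝ) = ((N a : ℝ) + 1) * ((k : ℝ) + 1) := by
    rw [hKdef]
    push_cast
    ring
  have hN0 : (0 : ℝ) ≤ N a := Nat.cast_nonneg _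
  have hk0 : (0 : ℝ) ≤ k := Nat.cast_nonneg _
  calc |∑ i ∈ Finset.range (N a), (f ((a, i), K (a, k)) - φ (a, i))|
      ≤ ∑ i ∈ Finset.range (N a), |f ((a, i), K (a, k)) - φ (a, i)| :=
        Finset.abs_sum_le_sum_abs _ _
    _ ≤ ∑ i ∈ Finset.range (N a), 1 / (((K (a, k) : ℕ) : ℝ) + 1) :=
        Finset.sum_le_sum fun i _ => h1 (a, i) (K (a, k))
    _ = N a * (1 / (((N a : ℝ) + 1) * ((k : ℝ) + 1) + 1)) := by
        rw [Finset.sum_const, Finset.card_range, nsmul_eq_mul, hKval]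
    _ ≤ 1 / ((k : ℝ) + 1) := by
        rw [mul_one_div, div_le_div_iff₀ (by positivity) (by positivity)]
        nlinarith

/-- The exponential at nonpositive rational arguments. -/
theorem exp_neg {φ : α → ℝ} (h : RF φ) (h0 : ∀ a, 0 ≤ φ a) : CF fun a => Real.exp (- φ a) := by
  obtain ⟨B, hB, hB'⟩ := h.bound
  set n : α × ℕ → ℕ := fun p => (B p.1 + 1) * (B p.1 + 1) * (p.2 + 1) with hn
  have hnc : Computable n :=
    cmul (cmul (csucc (hB.comp Computable.fst)) (csucc (hB.comp Computable.fst)))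
      (csucc Computable.snd)
  refine ⟨fun p => ((1 + φ p.1 / n p)⁻¹) ^ n p, ?_, fun a k => ?_⟩
  · have h1 : RF fun p : α × ℕ => φ p.1 := h.comp Computable.fst
    have h2 : RF fun p : α × ℕ => (n p : ℝ) := RF.nat hnc
    have h3 : RF fun _ : α × ℕ => ((1 : ℕ) : ℝ) := RF.constNat 1
    have h4 := (((h3.add (h1.div h2)).inv).pow hnc)
    exact h4.congr fun p => by simp
  · simp only []
    set r := φ a with hr
    have hr0 : 0 ≤ r := h0 a
    have hrB : r ≤ B a := (le_abs_self _).trans (hB' a)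
    set m := n (a, k) with hm
    have hmval : (m : ℝ) = ((B a : ℝ) + 1) * ((B a : ℝ) + 1) * ((k : ℝ) + 1) := by
      rw [hm, hn]
      push_cast
      ring
    have hB0 : (0 : ℝ) ≤ B a := Nat.cast_nonneg _
    have hk0 : (0 : ℝ) ≤ k := Nat.cast_nonneg _
    have hmpos : (0 : ℝ) < m := by
      rw [hmval]
      positivity
    set x := r / m with hx
    have hx0 : 0 ≤ x := by positivity
    have hx1 : x ≤ 1 := by
      rw [hx, div_le_one hmpos, hmval]
      nlinarith [mul_nonneg (mul_nonneg hB0 hB0) hk0, mul_nonneg hB0 hk0, mul_nonneg hB0 hB0]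
    have hmx : (m : ℝ) * x = r := by
      rw [hx]
      field_simp
    -- upper bound
    have u1 : (1 + x) ^ m ≤ Real.exp r := by
      calc (1 + x) ^ m ≤ (Real.exp x) ^ m := by
            apply pow_le_pow_left₀ (by linarith)
            have := Real.add_one_le_exp x
            linarith
        _ = Real.exp r := by rw [← Real.exp_nat_mul, hmx]
    have u2 : (1 - x) ^ m ≤ Real.exp (-r) := by
      calc (1 - x) ^ m ≤ (Real.exp (-x)) ^ m := by
            apply pow_le_pow_left₀ (by linarith)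
            have := Real.add_one_le_exp (-x)
            linarith
        _ = Real.exp (-r) := by rw [← Real.exp_nat_mul, mul_neg, hmx]
    have u3 : Real.exp (-r) ≤ ((1 + x)⁻¹) ^ m := by
      rw [inv_pow, Real.exp_neg]
      exact inv_anti₀ (by positivity) u1
    have u4 : 1 - (m : ℝ) * x ^ 2 ≤ (1 - x ^ 2) ^ m := by
      have := one_add_mul_le_pow (a := -x ^ 2) (by nlinarith) m
      have e : (1 : ℝ) + -x ^ 2 = 1 - x ^ 2 := by ring
      rw [e] at this
      linarith
    have u5 : ((1 + x)⁻¹) ^ m - (1 - x) ^ m ≤ (m : ℝ) * x ^ 2 := by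
      have e1 : (1 - x) ^ m = ((1 + x)⁻¹) ^ m * (1 - x ^ 2) ^ m := by
        rw [← mul_pow]
        congr 1
        have : (1 + x) ≠ 0 := by positivity
        field_simp
        ring
      rw [e1]
      have e2 : ((1 + x)⁻¹) ^ m - ((1 + x)⁻¹) ^ m * (1 - x ^ 2) ^ m =
          ((1 + x)⁻¹) ^ m * (1 - (1 - x ^ 2) ^ m) := by ring
      rw [e2]
      have e3 : ((1 + x)⁻¹) ^ m ≤ 1 := by
        apply pow_le_one₀ (by positivity)
        exact inv_le_one_of_one_le₀ (by linarith)
      have e4 : 0 ≤ 1 - (1 - x ^ 2) ^ m := by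
        have : (1 - x ^ 2) ^ m ≤ 1 := by
          apply pow_le_one₀ <;> nlinarith
        linarith
      calc ((1 + x)⁻¹) ^ m * (1 - (1 - x ^ 2) ^ m) ≤ 1 * (1 - (1 - x ^ 2) ^ m) :=
            mul_le_mul_of_nonneg_right e3 e4
        _ ≤ (m : ℝ) * x ^ 2 := by linarith
    have u6 : (m : ℝ) * x ^ 2 ≤ 1 / ((k : ℝ) + 1) := by
      have : (m : ℝ) * x ^ 2 = r * x := by rw [pow_two, ← mul_assoc, hmx]
      rw [this, hx, hmval, mul_div_assoc', div_le_div_iff₀ (by positivity) (by positivity)]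
      have : r * r ≤ ((B a : ℝ) + 1) * ((B a : ℝ) + 1) := by nlinarith
      nlinarith
    rw [abs_le]
    constructor <;> linarith

end CF

end Vale.Agent.P113
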