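import Mathlib

/-!
# Halting detection by particle trajectories of forced Navier-Stokes flows from rest

Definitions used in the statement for problem P113.  Functions on the flat torus
`𝕋³ = (ℝ/ℤ)³` are represented by `ℤ³`-periodic functions on `ℝ³`.
Time dependent objects are functions of `t : ℝ`, but every condition below
only involves their values at the times of the stated time set (contained in `[0,∞)`).
-/

namespace Vale.Agent.P113

open Set

/-- The universal cover `ℝ³` of the flat torus. -/
abbrev R3 : Type := Fin 3 → ℝ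

/-- The flat torus `𝕋³ = (ℝ/ℤ)³`. -/
abbrev T3 : Type := Fin 3 → UnitAddCircle

/-- The covering projection `ℝ³ → 𝕋³`. -/
def toTorus (x : R3) : T3 := fun i => (x i : UnitAddCircle)

/-- A function on `ℝ³` is `ℤ³`-periodic, i.e. it is (the lift of) a function on `𝕋³`. -/
def SpacePeriodic {β : Type} (g : R3 → β) : Prop :=
  ∀ (x : R3) (m : Fin 3 → ℤ), g (fun i => x i + (m i : ℝ)) = g x

/-- The partial derivative of `g : ℝ³ → ℝ` in the direction of the `j`-th coordinate. -/
noncomputable def dx (j : Fin 3) (g : R3 → ℝ) (x : R3) : ℝ :=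
  deriv (fun s : ℝ => g (Function.update x j s)) (x j)

/-- `C^∞` on `[0,∞) × ℝ³` (up to the boundary `t = 0`). -/
def SmoothInSpacetime {β : Type} [NormedAddCommGroup β] [NormedSpace ℝ β]
    (g : ℝ → R3 → β) : Prop :=
  ContDiffOn ℝ (⊤ : ℕ∞) (fun z : ℝ × R3 => g z.1 z.2) (Ici 0 ×ˢ univ)

/-- `(u, p)` is a classical solution, on the time set `I` (which is `[0,T]` or `[0,∞)` below),
of the incompressible Navier-Stokes equations on `𝕋³` with viscosity `ν`, force `f`, from rest:
`∂ₜu + (u·∇)u = -∇p + νΔu + f`, `div u = 0`, `u(0,·) = 0`, `∫ p = 0`. -/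
structure IsClassicalSolution (ν : ℝ) (f : ℝ → R3 → R3) (I : Set ℝ)
    (u : ℝ → R3 → R3) (p : ℝ → R3 → ℝ) : Prop where
  /-- `u` and `p` are functions on the torus. -/
  periodic_u : ∀ t ∈ I, SpacePeriodic (u t)
  periodic_p : ∀ t ∈ I, SpacePeriodic (p t)
  /-- `u` is differentiable in time, with one-sided derivatives at endpoints of `I`. -/
  time_diff : ∀ x, DifferentiableOn ℝ (fun t => u t x) I
  /-- `u` is twice and `p` is once continuously differentiable in space. -/
  space_C2 : ∀ t ∈ I, ContDiff ℝ 2 (u t)
  space_C1 : ∀ t ∈ I, ContDiff ℝ 1 (p t)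
  /-- `u`, `∂ₜu`, the first and second space derivatives of `u`, `p` and `∇p` are continuous
  on `I × 𝕋³`. -/
  cont_u : ContinuousOn (fun z : ℝ × R3 => u z.1 z.2) (I ×ˢ univ)
  cont_dt : ContinuousOn (fun z : ℝ × R3 => derivWithin (fun s => u s z.2) I z.1) (I ×ˢ univ)
  cont_dx : ∀ i j, ContinuousOn (fun z : ℝ × R3 => dx j (fun y => u z.1 y i) z.2) (I ×ˢ univ)
  cont_dxdx : ∀ i j k, ContinuousOn
    (fun z : ℝ × R3 => dx k (dx j (fun y => u z.1 y i)) z.2) (I ×ˢ univ)
  cont_p : ContinuousOn (fun z : ℝ × R3 => p z.1 z.2) (I ×ˢ univ)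
  cont_dp : ∀ j, ContinuousOn (fun z : ℝ × R3 => dx j (p z.1) z.2) (I ×ˢ univ)
  /-- The momentum equation, componentwise. -/
  momentum : ∀ t ∈ I, ∀ x, ∀ i,
    derivWithin (fun s => u s x i) I t + ∑ j, u t x j * dx j (fun y => u t y i) x
      = - dx i (p t) x + ν * ∑ j, dx j (dx j (fun y => u t y i)) x + f t x i
  /-- Incompressibility. -/
  div_free : ∀ t ∈ I, ∀ x, ∑ j, dx j (fun y => u t y j) x = 0
  /-- The fluid starts from rest. -/
  initial : ∀ x, u 0 x = 0
  /-- The pressure has spatial mean zero. -/
  mean_zero : ∀ t ∈ I, ∫ x in Icc (0 : R3) 1, p t x = 0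

/-- `X : [0,∞) → ℝ³` is (a lift to `ℝ³` of) the trajectory of the point `a ∈ 𝕋³` under the
velocity field `u`: `X' = u(t, X)` for all `t ≥ 0` and `X 0` projects to `a`. -/
def IsTrajectory (u : ℝ → R3 → R3) (a : T3) (X : ℝ → R3) : Prop :=
  toTorus (X 0) = a ∧ ∀ t, 0 ≤ t → HasDerivWithinAt X (u t (X t)) (Ici 0) t

/-! ### Turing machines -/

/-- Head moves. -/
inductive Move : Type
  | left : Move
  | stay : Move
  | right : Move

/-- A deterministic one-tape Turing machine: states `0, …, numStates`, tape symbols
`0, …, numSymbols` where `0` is the blank, a start state, a set of halting states and a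
transition table `(state, scanned symbol) ↦ (new state, written symbol, move)`. -/
structure Machine : Type where
  numStates : ℕ
  numSymbols : ℕ
  start : Fin (numStates + 1)
  halting : Fin (numStates + 1) → Bool
  rule : Fin (numStates + 1) → Fin (numSymbols + 1) →
    Fin (numStates + 1) × Fin (numSymbols + 1) × Move

/-- A configuration: the current state, the position of the head, the two-sided tape. -/
structure Machine.Cfg (M : Machine) : Type where
  state : Fin (M.numStates + 1)
  head : ℤ
  tape : ℤ → Fin (M.numSymbols + 1)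

/-- The displacement of the head. -/
def Move.shift : Move → ℤ
  | Move.left => -1
  | Move.stay => 0
  | Move.right => 1

/-- One step of the machine. -/
def Machine.step (M : Machine) (c : M.Cfg) : M.Cfg :=
  let r := M.rule c.state (c.tape c.head)
  { state := r.1
    head := c.head + r.2.2.shift
    tape := Function.update c.tape c.head r.2.1 }

/-- The initial configuration on input `w`: the word `w` is written on cells `0, 1, 2, …` of an
otherwise blank tape, the head is at cell `0`. -/
def Machine.init (M : Machine) (w : List (Fin (M.numSymbols + 1))) : M.Cfg :=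
  { state := M.start
    head := 0
    tape := fun z => if 0 ≤ z then w.getD z.toNat 0 else 0 }

/-- `M` halts on `w`: after finitely many steps (possibly none) it is in a halting state. -/
def Machine.HaltsOn (M : Machine) (w : List (Fin (M.numSymbols + 1))) : Prop :=
  ∃ n : ℕ, M.halting (M.step^[n] (M.init w)).state = true

/-- Finite data describing a machine: start state, list of halting flags, transition table. -/
abbrev MachineCode : Type := ℕ × List Bool × List (List (ℕ × ℕ × ℕ))

/-- Numerical code of a move. -/
def Move.code : Move → ℕ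
  | Move.left => 0
  | Move.stay => 1
  | Move.right => 2

/-- The description of a machine as finite data, which is what algorithms receive. -/
def Machine.code (M : Machine) : MachineCode :=
  (M.start.val, List.ofFn M.halting,
    List.ofFn fun q => List.ofFn fun s =>
      ((M.rule q s).1.val, (M.rule q s).2.1.val, (M.rule q s).2.2.code))

/-! ### Computable reals and effective forces -/

/-- Codes of rational numbers. -/
abbrev RatCode : Type := ℕ × ℕ × ℕ

/-- The rational number `(a - b) / (c + 1)` coded by `(a, b, c)`. -/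
noncomputable def ratVal (r : RatCode) : ℝ := ((r.1 : ℝ) - (r.2.1 : ℝ)) / ((r.2.2 : ℝ) + 1)

/-- `x` is a computable real number. -/
def IsComputableReal (x : ℝ) : Prop :=
  ∃ F : ℕ → RatCode, Computable F ∧ ∀ k : ℕ, |ratVal (F k) - x| ≤ 1 / ((k : ℝ) + 1)

/-- Mixed partial derivatives on `[0,∞) × ℝ³`: the list gives the sequence of directions,
`none` is the time direction (one-sided at `t = 0`) and `some j` is the `j`-th space direction. -/
noncomputable def mixedDeriv : List (Option (Fin 3)) → (ℝ → R3 → ℝ) → (ℝ → R3 → ℝ)
  | [], F => F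
  | none :: l, F => fun t x => derivWithin (fun s => mixedDeriv l F s x) (Ici 0) t
  | some j :: l, F => fun t x => dx j (fun y => mixedDeriv l F t y) x

/-- The program `c` computes the force `f` with all its mixed derivatives: on input
`(α, i, (t, x₁, x₂, x₃), k)` with `(t, x₁, x₂, x₃)` rational and `t ≥ 0`, it halts and returns
a rational number within `1/(k+1)` of `∂^α fᵢ (t, x₁, x₂, x₃)`. -/
def IsProgramFor (c : Nat.Partrec.Code) (f : ℝ → R3 → R3) : Prop :=
  ∀ (α : List (Option (Fin 3))) (i : Fin 3) (q : RatCode × RatCode × RatCode × RatCode) (k : ℕ),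
    0 ≤ ratVal q.1 →
    ∃ r : RatCode, c.eval (Encodable.encode (α, i, q, k)) = Part.some (Encodable.encode r) ∧
      |ratVal r - mixedDeriv α (fun t x => f t x i) (ratVal q.1)
        ![ratVal q.2.1, ratVal q.2.2.1, ratVal q.2.2.2]| ≤ 1 / ((k : ℝ) + 1)

/-- `compile` is a force compiler for the family of forces `f`: an algorithm which, on every
pair (machine, input word), outputs a program for the smooth force `f M w` on `𝕋³`, such that for
some time `T₀` independent of `(M, w)` the restriction of `f M w` to `t ≥ T₀` is periodic in time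
and depends on `M` only. -/
structure IsForceCompiler (compile : MachineCode × List ℕ → Nat.Partrec.Code)
    (f : (M : Machine) → List (Fin (M.numSymbols + 1)) → ℝ → R3 → R3) : Prop where
  computable : Computable compile
  smooth : ∀ M w, SmoothInSpacetime (f M w)
  space_periodic : ∀ M w t, 0 ≤ t → SpacePeriodic (f M w t)
  program : ∀ M w, IsProgramFor (compile (M.code, w.map Fin.val)) (f M w)
  eventually : ∃ T₀ : ℝ, 0 ≤ T₀ ∧
    (∀ M, ∃ P : ℝ, 0 < P ∧ ∀ w t, T₀ ≤ t → f M w (t + P) = f M w t) ∧
    (∀ M w w' t, T₀ ≤ t → f M w t = f M w' t)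

end Vale.Agent.P113
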