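import Vale.Agent.P113.Bump

/-! The comb function, the shear profile, the time profiles. -/

namespace Vale.Agent.P113

open Set Filter Topology

theorem iteratedDeriv_comp_affine {F : ℝ → ℝ} (hF : ContDiff ℝ (⊤ : ℕ∞) F) (c d : ℝ) (k : ℕ) :
    iteratedDeriv k (fun s => F (c * s + d)) = fun s => c ^ k * iteratedDeriv k F (c * s + d) := by
  induction k with
  | zero => simp
  | succ k ih =>
    rw [iteratedDeriv_succ, ih]
    funext s
    have hd : Differentiable ℝ (iteratedDeriv k F) :=
      hF.differentiable_iteratedDeriv k (by exact_mod_cast WithTop.coe_lt_top _)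
    have h1 : HasDerivAt (fun s : ℝ => c * s + d) c s := by
      simpa using ((hasDerivAt_id s).const_mul c).add_const d
    have h2 : HasDerivAt (fun s => iteratedDeriv k F (c * s + d))
        (iteratedDeriv (k + 1) F (c * s + d) * c) s := by
      have := (hd (c * s + d)).hasDerivAt.comp s h1
      rwa [← iteratedDeriv_succ] at this
    rw [(h2.const_mul (c ^ k)).deriv]
    ring

/-- The scale of the `n`-th tooth. -/
noncomputable def scl (n : ℕ) : ℝ := 16 ^ (n + 1) / 15

theorem scl_pos (n : ℕ) : 0 < scl n := by unfold scl; positivity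

/-- The `n`-th tooth, supported in `[16^{-(n+1)}, 16^{-n}]`. -/
noncomputable def tooth (n : ℕ) (s : ℝ) : ℝ := bump (scl n * s + (-(1 / 15)))

theorem contDiff_tooth (n : ℕ) : ContDiff ℝ (⊤ : ℕ∞) (tooth n) := by
  unfold tooth
  exact contDiff_bump.comp ((contDiff_const.mul contDiff_id).add contDiff_const)

theorem iteratedDeriv_tooth (n k : ℕ) (s : ℝ) :
    iteratedDeriv k (tooth n) s = scl n ^ k * iteratedDeriv k bump (scl n * s + (-(1 / 15))) := by
  have := congrFun (iteratedDeriv_comp_affine contDiff_bump (scl n) (-(1 / 15)) k) s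
  exact this

/-- If `s ≤ 16^{-(n+1)}` the argument of the bump is nonpositive. -/
theorem arg_nonpos {n : ℕ} {s : ℝ} (hs : 16 ^ (n + 1) * s ≤ 1) : scl n * s + (-(1 / 15)) ≤ 0 := by
  unfold scl
  linarith

theorem arg_ge_one {n : ℕ} {s : ℝ} (hs : 1 ≤ 16 ^ n * s) : 1 ≤ scl n * s + (-(1 / 15)) := by
  unfold scl
  rw [pow_succ]
  linarith

/-- The comb with amplitudes `a`. -/
noncomputable def comb (a : ℕ → ℝ) (s : ℝ) : ℝ := ∑' n, a n * tooth n s

theorem contDiff_comb {a : ℕ → ℝ} (ha : ∀ n, |a n| ≤ 1 / (n.factorial : ℝ)) :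
    ContDiff ℝ (⊤ : ℕ∞) (comb a) := by
  choose C hC0 hC using bump_iteratedDeriv_bounded
  unfold comb
  refine contDiff_tsum (v := fun k n => C k * 16 ^ k * ((16 ^ k) ^ n / (n.factorial : ℝ)))
    (fun n => contDiff_const.mul (contDiff_tooth n)) ?_ ?_
  · intro k _
    exact (Real.summable_pow_div_factorial (16 ^ k)).mul_left _
  · intro k n x _
    rw [norm_iteratedFDeriv_eq_norm_iteratedDeriv]
    have h1 : iteratedDeriv k (fun s => a n * tooth n s) x = a n * iteratedDeriv k (tooth n) x := by
      apply iteratedDeriv_const_mul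
      exact (contDiff_tooth n).contDiffAt.of_le (by exact_mod_cast le_top)
    rw [h1, iteratedDeriv_tooth, Real.norm_eq_abs, abs_mul, abs_mul, abs_pow,
      abs_of_pos (scl_pos n)]
    have h2 : scl n ^ k ≤ 16 ^ k * (16 ^ k) ^ n := by
      have : scl n ≤ 16 ^ (n + 1) := by
        unfold scl
        have : (0 : ℝ) < 16 ^ (n + 1) := by positivity
        linarith
      calc scl n ^ k ≤ (16 ^ (n + 1)) ^ k := pow_le_pow_left₀ (scl_pos n).le this k
        _ = 16 ^ k * (16 ^ k) ^ n := by
          rw [← pow_mul, ← pow_mul, ← pow_add]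
          congr 1
          ring
    calc |a n| * (scl n ^ k * |iteratedDeriv k bump (scl n * x + -(1 / 15))|)
        ≤ (1 / (n.factorial : ℝ)) * ((16 ^ k * (16 ^ k) ^ n) * C k) := by
          apply mul_le_mul (ha n) _ (by have := scl_pos n; positivity) (by positivity)
          exact mul_le_mul h2 (hC k _) (abs_nonneg _) (by positivity)
      _ = C k * 16 ^ k * ((16 ^ k) ^ n / (n.factorial : ℝ)) := by ring

theorem comb_vanishesOff (a : ℕ → ℝ) : VanishesOff (comb a) := by
  intro s hs
  have : ∀ n, a n * tooth n s = 0 := by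
    intro n
    have h0 : tooth n s = 0 := by
      apply bump_vanishesOff
      rcases hs with hs | hs
      · left
        apply arg_nonpos
        have : (16 : ℝ) ^ (n + 1) * s ≤ 0 := mul_nonpos_of_nonneg_of_nonpos (by positivity) hs
        linarith
      · right
        apply arg_ge_one
        have : (1 : ℝ) ≤ 16 ^ n := one_le_pow₀ (by norm_num)
        nlinarith
    rw [h0, mul_zero]
  unfold comb
  simp [this]

theorem comb_eventuallyEq (a : ℕ → ℝ) {N : ℕ} {s : ℝ} (hs : 1 < 16 ^ N * s) :
    comb a =ᶠ[𝓝 s] fun x => ∑ n ∈ Finset.range N, a n * tooth n x := by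
  have : {x : ℝ | 1 < 16 ^ N * x} ∈ 𝓝 s := by
    have ho : IsOpen {x : ℝ | 1 < 16 ^ N * x} :=
      isOpen_lt continuous_const (continuous_const.mul continuous_id)
    exact ho.mem_nhds hs
  filter_upwards [this] with x hx
  unfold comb
  apply tsum_eq_sum
  intro n hn
  rw [Finset.mem_range, not_lt] at hn
  have h0 : tooth n x = 0 := by
    apply bump_vanishesOff
    right
    apply arg_ge_one
    have hx0 : 0 < x := by
      by_contra h
      have : (16 : ℝ) ^ N * x ≤ 0 := mul_nonpos_of_nonneg_of_nonpos (by positivity) (not_lt.1 h)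
      have h' : (1 : ℝ) < 16 ^ N * x := hx
      linarith
    have h' : (1 : ℝ) < 16 ^ N * x := hx
    have : (16 : ℝ) ^ N ≤ 16 ^ n := pow_le_pow_right₀ (by norm_num) hn
    nlinarith
  rw [h0, mul_zero]

/-- Derivatives of the comb at a point `s ∈ [0,1)` which is zero or not too small. -/
theorem iteratedDeriv_comb {a : ℕ → ℝ} (ha : ∀ n, |a n| ≤ 1 / (n.factorial : ℝ)) {N : ℕ} {s : ℝ}
    (hs : s ≤ 0 ∨ 1 < 16 ^ N * s) (k : ℕ) :
    iteratedDeriv k (comb a) s = ∑ n ∈ Finset.range N,
      a n * (scl n ^ k * iteratedDeriv k bump (scl n * s + (-(1 / 15)))) := by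
  rcases hs with hs | hs
  · rw [(comb_vanishesOff a).iteratedDeriv (contDiff_comb ha) k s (Or.inl hs)]
    symm
    apply Finset.sum_eq_zero
    intro n _
    rw [bump_vanishesOff.iteratedDeriv contDiff_bump k _ (Or.inl _), mul_zero, mul_zero]
    apply arg_nonpos
    have : (16 : ℝ) ^ (n + 1) * s ≤ 0 := mul_nonpos_of_nonneg_of_nonpos (by positivity) hs
    linarith
  · rw [(comb_eventuallyEq a hs).iteratedDeriv_eq k]
    rw [iteratedDeriv_fun_sum]
    · apply Finset.sum_congr rfl
      intro n _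
      rw [← iteratedDeriv_tooth]
      apply iteratedDeriv_const_mul
      exact (contDiff_tooth n).contDiffAt.of_le (by exact_mod_cast le_top)
    · intro n _
      exact (contDiff_const.mul (contDiff_tooth n)).contDiffAt.of_le (by exact_mod_cast le_top)

/-- The value of the comb on the interior of the `n`-th tooth. -/
theorem comb_eq {a : ℕ → ℝ} {n : ℕ} {s : ℝ} (h1 : 1 < 16 ^ (n + 1) * s) (h2 : 16 ^ n * s < 1) :
    comb a s = a n * tooth n s := by
  have hs0 : 0 < s := by
    by_contra h
    have : (16 : ℝ) ^ (n + 1) * s ≤ 0 :=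
      mul_nonpos_of_nonneg_of_nonpos (by positivity) (not_lt.1 h)
    linarith
  unfold comb
  apply tsum_eq_single
  intro m hm
  have h0 : tooth m s = 0 := by
    apply bump_vanishesOff
    rcases lt_or_gt_of_ne hm with hlt | hgt
    · left
      apply arg_nonpos
      have : (16 : ℝ) ^ (m + 1) ≤ 16 ^ n := pow_le_pow_right₀ (by norm_num) hlt
      nlinarith
    · right
      apply arg_ge_one
      have : (16 : ℝ) ^ (n + 1) ≤ 16 ^ m := pow_le_pow_right₀ (by norm_num) hgt
      nlinarith
  rw [h0, mul_zero]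

theorem tooth_pos {n : ℕ} {s : ℝ} (h1 : 1 < 16 ^ (n + 1) * s) (h2 : 16 ^ n * s < 1) :
    0 < tooth n s := by
  apply bump_pos
  · unfold scl
    linarith
  · unfold scl
    rw [pow_succ]
    linarith

/-- The shear profile: periodization of the comb. -/
noncomputable def profile (a : ℕ → ℝ) : ℝ → ℝ := glue (fun _ => 1) (comb a)

/-- The time modulation of the shear: a train of bumps starting at time `1`. -/
noncomputable def pulse : ℝ → ℝ := glue (fun m => if 1 ≤ m then 1 else 0) bump

theorem contDiff_profile {a : ℕ → ℝ} (ha : ∀ n, |a n| ≤ 1 / (n.factorial : ℝ)) :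
    ContDiff ℝ (⊤ : ℕ∞) (profile a) :=
  contDiff_glue _ (contDiff_comb ha) (comb_vanishesOff a)

theorem contDiff_pulse : ContDiff ℝ (⊤ : ℕ∞) pulse :=
  contDiff_glue _ contDiff_bump bump_vanishesOff

theorem iteratedDeriv_profile {a : ℕ → ℝ} (ha : ∀ n, |a n| ≤ 1 / (n.factorial : ℝ)) (k : ℕ)
    (y : ℝ) : iteratedDeriv k (profile a) y = iteratedDeriv k (comb a) (Int.fract y) := by
  unfold profile
  rw [iteratedDeriv_glue _ (contDiff_comb ha) (comb_vanishesOff a)]
  simp [glue]

theorem iteratedDeriv_pulse (k : ℕ) (t : ℝ) :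
    iteratedDeriv k pulse t = if 1 ≤ t then iteratedDeriv k bump (Int.fract t) else 0 := by
  unfold pulse
  rw [iteratedDeriv_glue _ contDiff_bump bump_vanishesOff]
  have : (1 ≤ ⌊t⌋) ↔ 1 ≤ t := by
    rw [Int.le_floor]
    simp
  simp [glue, this]

theorem profile_add_int (a : ℕ → ℝ) (y : ℝ) (m : ℤ) : profile a (y + m) = profile a y :=
  glue_add_int _ _ _ _ rfl

theorem pulse_eq_zero {t : ℝ} (ht : t ≤ 1) : pulse t = 0 := by
  have := iteratedDeriv_pulse 0 t
  simp only [iteratedDeriv_zero] at this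
  rw [this]
  split_ifs with h
  · have : t = 1 := le_antisymm ht h
    subst this
    simp [bump_vanishesOff 0 (Or.inl le_rfl)]
  · rfl

theorem pulse_add_one {t : ℝ} (ht : 1 ≤ t) : pulse (t + 1) = pulse t := by
  have h := iteratedDeriv_pulse 0 t
  have h' := iteratedDeriv_pulse 0 (t + 1)
  simp only [iteratedDeriv_zero] at h h'
  rw [h, h', if_pos ht, if_pos (by linarith)]
  simp

theorem pulse_nonneg (t : ℝ) : 0 ≤ pulse t := by
  have h := iteratedDeriv_pulse 0 t
  simp only [iteratedDeriv_zero] at h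
  rw [h]
  split_ifs
  · exact bump_nonneg _
  · exact le_rfl

theorem profile_nonneg {a : ℕ → ℝ} (ha : ∀ n, 0 ≤ a n) (y : ℝ) : 0 ≤ profile a y := by
  unfold profile glue comb
  rw [one_mul]
  exact tsum_nonneg fun n => mul_nonneg (ha n) (bump_nonneg _)

end Vale.Agent.P113
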