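import Vale.Agent.P113.Comp
import Vale.Agent.P113.Field

/-! Closed form and computability of the derivatives of `expNegInvGlue` and of the bump. -/

namespace Vale.Agent.P113

variable {α : Type} [Primcodable α]

/-- Unsigned Lah numbers. -/
def lah : ℕ → ℕ → ℕ
  | 0, 0 => 1
  | 0, (_ + 1) => 0
  | (_ + 1), 0 => 0
  | (j + 1), (i + 1) => (j + (i + 1)) * lah j (i + 1) + lah j i

theorem lah_eq_zero_of_lt : ∀ (j i : ℕ), j < i → lah j i = 0 := by
  intro j
  induction j with
  | zero =>
    intro i hi
    obtain ⟨i, rfl⟩ : ∃ k, i = k + 1 := ⟨i - 1, by omega⟩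
    rfl
  | succ j ih =>
    intro i hi
    obtain ⟨i, rfl⟩ : ∃ k, i = k + 1 := ⟨i - 1, by omega⟩
    simp only [lah]
    rw [ih _ (by omega), ih _ (by omega)]
    simp

theorem lah_mul_factorial (j : ℕ) : ∀ i : ℕ,
    lah (j + 1) (i + 1) * (i + 1).factorial = j.choose i * (j + 1).factorial := by
  induction j with
  | zero =>
    intro i
    cases i with
    | zero => rfl
    | succ i => simp [lah]
  | succ j ih =>
    intro i
    cases i with
    | zero =>
      have h := ih 0
      simp only [zero_add, Nat.factorial_one, mul_one, Nat.choose_zero_right, one_mul] at h ⊢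
      have e : lah (j + 1 + 1) 1 = (j + 1 + 1) * lah (j + 1) 1 + lah (j + 1) 0 := rfl
      rw [e, h]
      simp [lah, Nat.factorial_succ (j + 1)]
    | succ i =>
      have h1 := ih (i + 1)
      have h2 := ih i
      have e : lah (j + 1 + 1) (i + 1 + 1) =
          (j + 1 + (i + 1 + 1)) * lah (j + 1) (i + 1 + 1) + lah (j + 1) (i + 1) := rfl
      rw [e, add_mul, mul_assoc, h1]
      have e2 : lah (j + 1) (i + 1) * (i + 1 + 1).factorial =
          (i + 2) * (j.choose i * (j + 1).factorial) := by
        rw [← h2, Nat.factorial_succ (i + 1)]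
        ring
      rw [e2, Nat.choose_succ_succ, Nat.factorial_succ (j + 1)]
      have h3 : j.choose (i + 1) * (i + 1) = j.choose i * (j - i) := Nat.choose_succ_right_eq j i
      have h4 : j.choose i * (j - i) + j.choose i * i = j.choose i * j := by
        rcases le_or_gt i j with hle | hlt
        · rw [← mul_add, Nat.sub_add_cancel hle]
        · rw [Nat.choose_eq_zero_of_lt hlt]
          simp
      have h5 : (j + 1 + (i + 1 + 1)) * j.choose (i + 1) + (i + 2) * j.choose i =
          (j + 1 + 1) * (j.choose i + j.choose (i + 1)) := by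
        nlinarith
      calc (j + 1 + (i + 1 + 1)) * (j.choose (i + 1) * (j + 1).factorial) +
            (i + 2) * (j.choose i * (j + 1).factorial)
          = ((j + 1 + (i + 1 + 1)) * j.choose (i + 1) + (i + 2) * j.choose i) *
            (j + 1).factorial := by ring
        _ = (j.choose i + j.choose (i + 1)) * ((j + 1 + 1) * (j + 1).factorial) := by
            rw [h5]
            ring

theorem hasDerivAt_inv_pow_eng (n : ℕ) (x : ℝ) :
    HasDerivAt (fun x : ℝ => (x⁻¹) ^ n * expNegInvGlue x)
      (((x⁻¹) ^ (n + 2) - n * (x⁻¹) ^ (n + 1)) * expNegInvGlue x) x := by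
  have h := expNegInvGlue.hasDerivAt_polynomial_eval_inv_mul (Polynomial.X ^ n) x
  simp only [Polynomial.eval_pow, Polynomial.eval_X, Polynomial.derivative_X_pow,
    Polynomial.eval_mul, Polynomial.eval_sub, Polynomial.eval_C] at h
  convert! h using 2
  cases n with
  | zero => simp
  | succ n =>
    simp only [Nat.add_sub_cancel]
    push_cast
    ring

theorem iteratedDeriv_eng (j : ℕ) (x : ℝ) : iteratedDeriv j expNegInvGlue x =
    (∑ i ∈ Finset.range (j + 1), ((-1) ^ (j + i) * (lah j i : ℝ)) * (x⁻¹) ^ (j + i)) *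
      expNegInvGlue x := by
  induction j generalizing x with
  | zero => simp [lah]
  | succ j ih =>
    rw [iteratedDeriv_succ]
    have h0 : iteratedDeriv j expNegInvGlue = fun x =>
        ∑ i ∈ Finset.range (j + 1), ((-1) ^ (j + i) * (lah j i : ℝ)) *
          ((x⁻¹) ^ (j + i) * expNegInvGlue x) := by
      funext x
      rw [ih x, Finset.sum_mul]
      exact Finset.sum_congr rfl fun i _ => by ring
    have h1 : HasDerivAt (iteratedDeriv j expNegInvGlue)
        (∑ i ∈ Finset.range (j + 1), ((-1) ^ (j + i) * (lah j i : ℝ)) *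
          (((x⁻¹) ^ (j + i + 2) - ((j + i : ℕ) : ℝ) * (x⁻¹) ^ (j + i + 1)) *
            expNegInvGlue x)) x := by
      rw [h0]
      exact HasDerivAt.fun_sum fun i _ => (hasDerivAt_inv_pow_eng (j + i) x).const_mul _
    rw [h1.deriv]
    set y := x⁻¹ with hy
    set E := expNegInvGlue x with hE
    have hsplit : ∑ i ∈ Finset.range (j + 1 + 1), ((-1) ^ (j + 1 + i) * (lah (j + 1) i : ℝ)) *
        y ^ (j + 1 + i) =
        ∑ i ∈ Finset.range (j + 1), (((-1) ^ (j + i) * (lah j i : ℝ)) * y ^ (j + i + 2) +
          (-1) ^ (j + i) * ((j + (i + 1) : ℕ) : ℝ) * (lah j (i + 1) : ℝ) * y ^ (j + i + 2)) := by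
      rw [Finset.sum_range_succ']
      have : (lah (j + 1) 0 : ℝ) = 0 := by simp [lah]
      rw [this, mul_zero, zero_mul, add_zero]
      apply Finset.sum_congr rfl
      intro i _
      simp only [lah]
      push_cast
      ring
    rw [hsplit, Finset.sum_add_distrib]
    set g : ℕ → ℝ := fun i => (-1) ^ (j + i) * ((j + i : ℕ) : ℝ) * (lah j i : ℝ) * y ^ (j + i + 1)
      with hg
    have hg2 : ∑ i ∈ Finset.range (j + 1), (-1) ^ (j + i) * ((j + (i + 1) : ℕ) : ℝ) *
        (lah j (i + 1) : ℝ) * y ^ (j + i + 2) = - ∑ i ∈ Finset.range (j + 1), g (i + 1) := by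
      rw [← Finset.sum_neg_distrib]
      apply Finset.sum_congr rfl
      intro i _
      simp only [hg]
      have : (-1 : ℝ) ^ (j + (i + 1)) = - (-1) ^ (j + i) := by
        rw [← add_assoc, pow_succ]
        ring
      rw [this]
      ring
    have hg3 : ∑ i ∈ Finset.range (j + 1), g (i + 1) = ∑ i ∈ Finset.range (j + 1), g i := by
      have e1 := Finset.sum_range_succ' g (j + 1)
      have e2 := Finset.sum_range_succ g (j + 1)
      have e3 : g (j + 1) = 0 := by
        simp only [hg]
        rw [lah_eq_zero_of_lt j (j + 1) (by omega)]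
        simp
      have e4 : g 0 = 0 := by
        simp only [hg]
        cases j with
        | zero => simp
        | succ j => simp [lah]
      linarith
    rw [hg2, hg3, ← Finset.sum_neg_distrib, ← Finset.sum_add_distrib, Finset.sum_mul]
    apply Finset.sum_congr rfl
    intro i _
    simp only [hg]
    ring

/-! ### Computability -/

theorem computable_factorial {n : α → ℕ} (hn : Computable n) :
    Computable fun a => (n a).factorial := by
  have h : Computable fun a => (Nat.rec 1 (fun y IH => (y + 1) * IH) (n a) : ℕ) := by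
    refine Computable.nat_rec (h := fun _ (p : ℕ × ℕ) => (p.1 + 1) * p.2) hn
      (Computable.const 1) ?_
    exact cmul (csucc (Computable.fst.comp Computable.snd)) (Computable.snd.comp Computable.snd)
  refine h.of_eq fun a => ?_
  induction n a with
  | zero => rfl
  | succ m ih =>
    rw [Nat.factorial_succ, ← ih]

theorem computable_ite {c : α → Bool} {σ : Type} [Primcodable σ] {f g : α → σ}
    (hc : Computable c) (hf : Computable f) (hg : Computable g) :
    Computable fun a => if c a = true then f a else g a :=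
  (Computable.cond hc hf hg).of_eq fun a => by cases h : c a <;> simp

theorem computable_choose {n k : α → ℕ} (hn : Computable n) (hk : Computable k) :
    Computable fun a => (n a).choose (k a) := by
  have h := computable_ite (cle hk hn) (cdiv (computable_factorial hn)
    (cmul (computable_factorial hk) (computable_factorial (csub hn hk)))) (Computable.const 0)
  refine h.of_eq fun a => ?_
  by_cases hle : k a ≤ n a
  · simp [hle, Nat.choose_eq_factorial_div_factorial hle]
  · simp [hle, Nat.choose_eq_zero_of_lt (not_le.1 hle)]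

theorem computable_lah {j i : α → ℕ} (hj : Computable j) (hi : Computable i) :
    Computable fun a => lah (j a) (i a) := by
  have c0 : ∀ {f : α → ℕ}, Computable f → Computable fun a => decide (f a ≤ 0) :=
    fun hf => cle hf (Computable.const 0)
  have h := computable_ite (c0 hj)
    (computable_ite (c0 hi) (Computable.const 1) (Computable.const 0))
    (computable_ite (c0 hi) (Computable.const 0)
      (cdiv (cmul (computable_choose (csub hj (Computable.const 1)) (csub hi (Computable.const 1)))
        (computable_factorial hj)) (computable_factorial hi)))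
  refine h.of_eq fun a => ?_
  rcases hj' : j a with _ | j'
  · rcases hi' : i a with _ | i'
    · simp [lah]
    · simp [lah]
  · rcases hi' : i a with _ | i'
    · simp [lah]
    · simp only [nonpos_iff_eq_zero, Nat.add_eq_zero_iff, one_ne_zero, and_false, decide_false,
        Bool.false_eq_true, if_false, Nat.add_sub_cancel]
      rw [← lah_mul_factorial]
      exact Nat.mul_div_cancel _ (Nat.factorial_pos _)

theorem RF.negOnePow {n : α → ℕ} (hn : Computable n) : RF fun a => (-1 : ℝ) ^ n a := by
  have h : RF fun _ : α => (-1 : ℝ) := (RF.constNat 1).neg.congr fun _ => by simp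
  exact h.pow hn

theorem CF.eng {φ : α → ℝ} (hφ : RF φ) : CF fun a => expNegInvGlue (φ a) := by
  obtain ⟨d, hd, hd'⟩ := hφ.nonpos
  have hr : RF fun a => if d a = true then ((0 : ℕ) : ℝ) else (φ a)⁻¹ :=
    RF.ite hd (RF.constNat 0) hφ.inv
  have hr0 : ∀ a, 0 ≤ (if d a = true then ((0 : ℕ) : ℝ) else (φ a)⁻¹) := by
    intro a
    split_ifs with h
    · simp
    · rw [hd' a, not_le] at h
      positivity
  refine (CF.ite hd (RF.constNat 0).toCF (CF.exp_neg hr hr0)).congr fun a => ?_
  by_cases h : φ a ≤ 0
  · have h' : d a = true := (hd' a).2 h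
    simp [h', expNegInvGlue.zero_of_nonpos h]
  · have h' : ¬ d a = true := fun h2 => h ((hd' a).1 h2)
    simp [h', expNegInvGlue, h]

theorem CF.iterEng {φ : α → ℝ} (hφ : RF φ) {j : α → ℕ} (hj : Computable j) :
    CF fun a => iteratedDeriv (j a) expNegInvGlue (φ a) := by
  have hsum : RF fun a => ∑ i ∈ Finset.range (j a + 1),
      ((-1 : ℝ) ^ (j a + i) * (lah (j a) i : ℝ)) * ((φ a)⁻¹) ^ (j a + i) := by
    have hji : Computable fun p : α × ℕ => j p.1 + p.2 :=
      cadd (hj.comp Computable.fst) Computable.snd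
    have h1 : RF fun p : α × ℕ =>
        ((-1 : ℝ) ^ (j p.1 + p.2) * (lah (j p.1) p.2 : ℝ)) * ((φ p.1)⁻¹) ^ (j p.1 + p.2) :=
      ((RF.negOnePow hji).mul (RF.nat (computable_lah (hj.comp Computable.fst)
        Computable.snd))).mul ((hφ.comp Computable.fst).inv.pow hji)
    exact h1.sum (csucc hj)
  exact (hsum.toCF.mul (CF.eng hφ)).congr fun a => (iteratedDeriv_eng _ _).symm

theorem iteratedDeriv_bump (k : ℕ) (x : ℝ) : iteratedDeriv k bump x =
    ∑ i ∈ Finset.range (k + 1), ((k.choose i : ℕ) : ℝ) * iteratedDeriv i expNegInvGlue x *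
      ((-1) ^ (k - i) * iteratedDeriv (k - i) expNegInvGlue (1 - x)) := by
  have hE : ContDiff ℝ (⊤ : ℕ∞) expNegInvGlue := expNegInvGlue.contDiff
  have hE1 : ContDiff ℝ (⊤ : ℕ∞) (fun x : ℝ => expNegInvGlue (1 - x)) :=
    hE.comp (contDiff_const.sub contDiff_id)
  have h := iteratedDeriv_fun_mul (n := k) (x := x)
    ((hE.of_le (by exact_mod_cast le_top)).contDiffAt)
    ((hE1.of_le (by exact_mod_cast le_top)).contDiffAt)
  have hb : iteratedDeriv k bump x =
      iteratedDeriv k (fun x => expNegInvGlue x * expNegInvGlue (1 - x)) x := rfl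
  rw [hb, h]
  apply Finset.sum_congr rfl
  intro i _
  rw [iteratedDeriv_comp_const_sub]
  simp


theorem CF.iterBump {φ : α → ℝ} (hφ : RF φ) {k : α → ℕ} (hk : Computable k) :
    CF fun a => iteratedDeriv (k a) bump (φ a) := by
  have hk1 : Computable fun p : α × ℕ => k p.1 := hk.comp Computable.fst
  have hd : Computable fun p : α × ℕ => k p.1 - p.2 := csub hk1 Computable.snd
  have hφ1 : RF fun p : α × ℕ => φ p.1 := hφ.comp Computable.fst
  have hφ2 : RF fun p : α × ℕ => 1 - φ p.1 :=
    ((RF.constNat 1).sub hφ1).congr fun p => by simp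
  have hA : CF fun p : α × ℕ => iteratedDeriv p.2 expNegInvGlue (φ p.1) := by
    exact CF.iterEng (φ := fun p : α × ℕ => φ p.1) (j := fun p : α × ℕ => p.2) hφ1 Computable.snd
  have hB : CF fun p : α × ℕ => iteratedDeriv (k p.1 - p.2) expNegInvGlue (1 - φ p.1) := by
    exact CF.iterEng (φ := fun p : α × ℕ => 1 - φ p.1) (j := fun p : α × ℕ => k p.1 - p.2) hφ2 hd
  have hC : CF fun p : α × ℕ => (((k p.1).choose p.2 : ℕ) : ℝ) := by
    exact (RF.nat (computable_choose hk1 Computable.snd)).toCF
  have hD : CF fun p : α × ℕ => (-1 : ℝ) ^ (k p.1 - p.2) := by exact (RF.negOnePow hd).toCF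
  have h1 : CF fun p : α × ℕ => (((k p.1).choose p.2 : ℕ) : ℝ) *
      iteratedDeriv p.2 expNegInvGlue (φ p.1) *
      ((-1) ^ (k p.1 - p.2) * iteratedDeriv (k p.1 - p.2) expNegInvGlue (1 - φ p.1)) := by
    exact (hC.mul hA).mul (hD.mul hB)
  have h2 : CF fun a => ∑ i ∈ Finset.range (k a + 1), (((k a).choose i : ℕ) : ℝ) *
      iteratedDeriv i expNegInvGlue (φ a) *
      ((-1) ^ (k a - i) * iteratedDeriv (k a - i) expNegInvGlue (1 - φ a)) := by
    exact CF.sum h1 (csucc hk)
  refine CF.congr h2 ?_
  intro a
  exact (iteratedDeriv_bump (k a) (φ a)).symm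

end Vale.Agent.P113
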