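import Vale.Agent.P113.Defs

/-! Uniqueness of classical solutions, by the energy method. -/

namespace Vale.Agent.P113

open Set Filter Topology MeasureTheory

/-! ### Partial derivatives -/

theorem hasDerivAt_update_comp {g : R3 → ℝ} {x : R3} (hg : DifferentiableAt ℝ g x) (j : Fin 3) :
    HasDerivAt (fun s : ℝ => g (Function.update x j s)) (fderiv ℝ g x (Pi.single j 1)) (x j) := by
  have h1 : HasDerivAt (Function.update x j) (Pi.single j 1) (x j) := hasDerivAt_update x j (x j)
  have h2 : HasFDerivAt g (fderiv ℝ g x) (Function.update x j (x j)) := by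
    rw [Function.update_eq_self]
    exact hg.hasFDerivAt
  exact h2.comp_hasDerivAt (x j) h1

theorem dx_eq_fderiv {g : R3 → ℝ} {x : R3} (hg : DifferentiableAt ℝ g x) (j : Fin 3) :
    dx j g x = fderiv ℝ g x (Pi.single j 1) := (hasDerivAt_update_comp hg j).deriv

theorem contDiff_dx {g : R3 → ℝ} {n : ℕ} (hg : ContDiff ℝ (n + 1 : ℕ) g) (j : Fin 3) :
    ContDiff ℝ n (dx j g) := by
  have h0 : dx j g = fun x => fderiv ℝ g x (Pi.single j 1) := by
    funext x
    exact dx_eq_fderiv (hg.differentiable (by simp) x) j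
  rw [h0]
  have h1 : ContDiff ℝ n (fderiv ℝ g) := hg.fderiv_right (by norm_cast)
  exact h1.clm_apply contDiff_const

theorem dx_const_mul {g : R3 → ℝ} {x : R3} (hg : DifferentiableAt ℝ g x) (c : ℝ) (j : Fin 3) :
    dx j (fun y => c * g y) x = c * dx j g x := by
  rw [dx_eq_fderiv (hg.const_mul c), dx_eq_fderiv hg, fderiv_const_mul hg]
  simp

theorem dx_add {g h : R3 → ℝ} {x : R3} (hg : DifferentiableAt ℝ g x) (hh : DifferentiableAt ℝ h x)
    (j : Fin 3) : dx j (fun y => g y + h y) x = dx j g x + dx j h x := by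
  rw [dx_eq_fderiv (hg.fun_add hh), dx_eq_fderiv hg, dx_eq_fderiv hh, fderiv_fun_add hg hh]
  simp

theorem dx_sub {g h : R3 → ℝ} {x : R3} (hg : DifferentiableAt ℝ g x) (hh : DifferentiableAt ℝ h x)
    (j : Fin 3) : dx j (fun y => g y - h y) x = dx j g x - dx j h x := by
  rw [dx_eq_fderiv (hg.fun_sub hh), dx_eq_fderiv hg, dx_eq_fderiv hh, fderiv_fun_sub hg hh]
  simp

theorem dx_mul {g h : R3 → ℝ} {x : R3} (hg : DifferentiableAt ℝ g x) (hh : DifferentiableAt ℝ h x)
    (j : Fin 3) : dx j (fun y => g y * h y) x = dx j g x * h x + g x * dx j h x := by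
  rw [dx_eq_fderiv (hg.fun_mul hh), dx_eq_fderiv hg, dx_eq_fderiv hh, fderiv_fun_mul hg hh]
  simp
  ring

theorem dx_sum {ι : Type} {g : ι → R3 → ℝ} {x : R3} (s : Finset ι)
    (hg : ∀ i ∈ s, DifferentiableAt ℝ (g i) x) (j : Fin 3) :
    dx j (fun y => ∑ i ∈ s, g i y) x = ∑ i ∈ s, dx j (g i) x := by
  rw [dx_eq_fderiv (DifferentiableAt.fun_sum hg), fderiv_fun_sum hg]
  rw [sum_apply]
  exact Finset.sum_congr rfl fun i hi => (dx_eq_fderiv (hg i hi) j).symm

theorem SpacePeriodic.dx {g : R3 → ℝ} (hg : SpacePeriodic g) (j : Fin 3) :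
    SpacePeriodic (dx j g) := by
  intro x m
  unfold Vale.Agent.P113.dx
  have h1 : ∀ s : ℝ, g (Function.update (fun i => x i + (m i : ℝ)) j (s + m j)) =
      g (Function.update x j s) := by
    intro s
    rw [← hg (Function.update x j s) m]
    congr 1
    funext i
    by_cases h : i = j
    · subst h
      simp
    · simp [Function.update_of_ne h]
  have h2 : (fun s : ℝ => g (Function.update x j s)) =
      fun s : ℝ => g (Function.update (fun i => x i + (m i : ℝ)) j (s + m j)) := by
    funext s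
    exact (h1 s).symm
  rw [h2]
  exact (deriv_comp_add_const
    (fun s : ℝ => g (Function.update (fun i => x i + (m i : ℝ)) j s)) (m j : ℝ) (x j)).symm

/-- The divergence theorem on the torus. -/
theorem integral_div_eq_zero {Φ : Fin 3 → R3 → ℝ} (hC : ∀ j, ContDiff ℝ 1 (Φ j))
    (hP : ∀ j, SpacePeriodic (Φ j)) : ∫ x in Icc (0 : R3) 1, ∑ j, dx j (Φ j) x = 0 := by
  have h1 : ∀ x, ∑ j, dx j (Φ j) x = ∑ j, fderiv ℝ (Φ j) x (Pi.single j 1) := by
    intro x
    apply Finset.sum_congr rfl
    intro j _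
    exact dx_eq_fderiv ((hC j).differentiable (by simp) x) j
  simp_rw [h1]
  have hle : (0 : R3) ≤ 1 := by
    intro i
    simp
  rw [integral_divergence_of_hasFDerivAt_off_countable' (0 : R3) 1 hle Φ
    (fun j x => fderiv ℝ (Φ j) x) ∅ countable_empty
    (fun j => (hC j).continuous.continuousOn)
    (fun x _ j => ((hC j).differentiable (by simp) x).hasFDerivAt)]
  · apply Finset.sum_eq_zero
    intro j _
    rw [sub_eq_zero]
    congr 1
    funext y
    have := hP j (j.insertNth 0 y) (Pi.single j 1)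
    have h2 : (fun i => (j.insertNth (0 : ℝ) y : R3) i + (((Pi.single j 1 : Fin 3 → ℤ) i : ℤ) : ℝ)) =
        (j.insertNth (1 : ℝ) y : R3) := by
      funext i
      refine Fin.succAboveCases j ?_ (fun k => ?_) i
      · simp
      · simp [Fin.succAbove_ne]
    rw [h2] at this
    simpa using this
  · apply ContinuousOn.integrableOn_compact isCompact_Icc
    apply Continuous.continuousOn
    apply continuous_finsetSum
    intro j _
    exact ((hC j).continuous_fderiv (by simp)).clm_apply continuous_const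

end Vale.Agent.P113
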