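import Vale.Agent.P113.Energy

/-! Uniqueness of classical solutions, by the energy method: the energy inequality. -/

namespace Vale.Agent.P113

open Set Filter Topology MeasureTheory

theorem energy_algebra (ν p0 q0 : ℝ) (V U P Q vt ut f : Fin 3 → ℝ)
    (A B AA BB : Fin 3 → Fin 3 → ℝ)
    (mv : ∀ i, vt i + ∑ j, V j * A i j = - Q i + ν * ∑ j, AA i j + f i)
    (mu : ∀ i, ut i + ∑ j, U j * B i j = - P i + ν * ∑ j, BB i j + f i)
    (dv : ∑ j, A j j = 0) (du : ∑ j, B j j = 0) :
    ∑ i, (V i - U i) * (vt i - ut i) =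
      (∑ j, (-(1 / 2) * (A j j * (∑ i, (V i - U i) * (V i - U i)) +
          V j * ∑ i, ((A i j - B i j) * (V i - U i) + (V i - U i) * (A i j - B i j)))
        - ((A j j - B j j) * (q0 - p0) + (V j - U j) * (Q j - P j))
        + ν * ∑ i, ((A i j - B i j) * (A i j - B i j) + (V i - U i) * (AA i j - BB i j))))
      + (- ν * (∑ i, ∑ j, (A i j - B i j) ^ 2) - ∑ i, ∑ j, (V i - U i) * (V j - U j) * B i j) := by
  have mv0 := mv 0
  have mv1 := mv 1
  have mv2 := mv 2
  have mu0 := mu 0
  have mu1 := mu 1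
  have mu2 := mu 2
  simp only [Fin.sum_univ_three] at *
  linear_combination (V 0 - U 0) * (mv0 - mu0) + (V 1 - U 1) * (mv1 - mu1)
    + (V 2 - U 2) * (mv2 - mu2)
    + (1 / 2 * ((V 0 - U 0) * (V 0 - U 0) + (V 1 - U 1) * (V 1 - U 1) + (V 2 - U 2) * (V 2 - U 2))
        + (q0 - p0)) * dv - (q0 - p0) * du

theorem quad_bound (C : ℝ) (W : Fin 3 → ℝ) (B : Fin 3 → Fin 3 → ℝ) (hB : ∀ i j, |B i j| ≤ C) :
    - ∑ i, ∑ j, W i * W j * B i j ≤ 3 * C * ∑ i, (W i) ^ 2 := by
  have h : ∀ i j, -(W i * W j * B i j) ≤ C * ((W i ^ 2 + W j ^ 2) / 2) := by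
    intro i j
    have h1 : -(W i * W j * B i j) ≤ |W i * W j| * C := by
      calc -(W i * W j * B i j) ≤ |W i * W j * B i j| := neg_le_abs _
        _ = |W i * W j| * |B i j| := abs_mul _ _
        _ ≤ |W i * W j| * C := mul_le_mul_of_nonneg_left (hB i j) (abs_nonneg _)
    have h2 : |W i * W j| ≤ (W i ^ 2 + W j ^ 2) / 2 := by
      rw [abs_le]
      constructor
      · nlinarith [sq_nonneg (W i + W j)]
      · nlinarith [sq_nonneg (W i - W j)]
    have hC : 0 ≤ C := (abs_nonneg _).trans (hB 0 0)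
    calc -(W i * W j * B i j) ≤ |W i * W j| * C := h1
      _ ≤ (W i ^ 2 + W j ^ 2) / 2 * C := mul_le_mul_of_nonneg_right h2 hC
      _ = C * ((W i ^ 2 + W j ^ 2) / 2) := mul_comm _ _
  rw [← Finset.sum_neg_distrib]
  calc ∑ i, -∑ j, W i * W j * B i j = ∑ i, ∑ j, -(W i * W j * B i j) := by
        apply Finset.sum_congr rfl
        intro i _
        rw [Finset.sum_neg_distrib]
    _ ≤ ∑ i : Fin 3, ∑ j : Fin 3, C * ((W i ^ 2 + W j ^ 2) / 2) :=
        Finset.sum_le_sum fun i _ => Finset.sum_le_sum fun j _ => h i j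
    _ = 3 * C * ∑ i, (W i) ^ 2 := by
        simp only [Fin.sum_univ_three]
        ring

theorem energy_slice {ν C : ℝ} (hν : 0 ≤ ν) {u v : R3 → R3} {p q : R3 → ℝ}
    {ut vt f : R3 → Fin 3 → ℝ} (hu : ContDiff ℝ 2 u) (hv : ContDiff ℝ 2 v)
    (hp : ContDiff ℝ 1 p) (hq : ContDiff ℝ 1 q)
    (pu : SpacePeriodic u) (pv : SpacePeriodic v) (pp : SpacePeriodic p) (pq : SpacePeriodic q)
    (mu : ∀ x i, ut x i + ∑ j, u x j * dx j (fun y => u y i) x
      = - dx i p x + ν * ∑ j, dx j (dx j (fun y => u y i)) x + f x i)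
    (mv : ∀ x i, vt x i + ∑ j, v x j * dx j (fun y => v y i) x
      = - dx i q x + ν * ∑ j, dx j (dx j (fun y => v y i)) x + f x i)
    (du : ∀ x, ∑ j, dx j (fun y => u y j) x = 0) (dv : ∀ x, ∑ j, dx j (fun y => v y j) x = 0)
    (hC : ∀ x ∈ Icc (0 : R3) 1, ∀ i j, |dx j (fun y => u y i) x| ≤ C) :
    ∫ x in Icc (0 : R3) 1, ∑ i, (v x i - u x i) * (vt x i - ut x i) ≤
      3 * C * ∫ x in Icc (0 : R3) 1, ∑ i, (v x i - u x i) ^ 2 := by
  have cu : ∀ i, ContDiff ℝ 2 (fun y => u y i) := fun i => contDiff_pi.1 hu i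
  have cv : ∀ i, ContDiff ℝ 2 (fun y => v y i) := fun i => contDiff_pi.1 hv i
  have cdu : ∀ i j, ContDiff ℝ 1 (dx j (fun y => u y i)) := fun i j =>
    contDiff_dx (n := 1) (cu i) j
  have cdv : ∀ i j, ContDiff ℝ 1 (dx j (fun y => v y i)) := fun i j =>
    contDiff_dx (n := 1) (cv i) j
  have cddu : ∀ i j k, Continuous (dx k (dx j (fun y => u y i))) := fun i j k =>
    (contDiff_dx (n := 0) (cdu i j) k).continuous
  have cddv : ∀ i j k, Continuous (dx k (dx j (fun y => v y i))) := fun i j k =>
    (contDiff_dx (n := 0) (cdv i j) k).continuous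
  have dfu : ∀ i x, DifferentiableAt ℝ (fun y => u y i) x := fun i x =>
    (cu i).differentiable (by simp) x
  have dfv : ∀ i x, DifferentiableAt ℝ (fun y => v y i) x := fun i x =>
    (cv i).differentiable (by simp) x
  have ddu : ∀ i j x, DifferentiableAt ℝ (dx j (fun y => u y i)) x := fun i j x =>
    (cdu i j).differentiable (by simp) x
  have ddv : ∀ i j x, DifferentiableAt ℝ (dx j (fun y => v y i)) x := fun i j x =>
    (cdv i j).differentiable (by simp) x
  have dp : ∀ x, DifferentiableAt ℝ p x := fun x => hp.differentiable (by simp) x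
  have dq : ∀ x, DifferentiableAt ℝ q x := fun x => hq.differentiable (by simp) x
  -- the vector field
  set Φ : Fin 3 → R3 → ℝ := fun j x =>
    -(1 / 2) * (v x j * ∑ i, (v x i - u x i) * (v x i - u x i))
      - (v x j - u x j) * (q x - p x)
      + ν * ∑ i, (v x i - u x i) * (dx j (fun y => v y i) x - dx j (fun y => u y i) x) with hΦ
  have hdW : ∀ i x, DifferentiableAt ℝ (fun y => v y i - u y i) x := fun i x =>
    (dfv i x).fun_sub (dfu i x)
  have hdD : ∀ i j x, DifferentiableAt ℝ
      (fun y => dx j (fun y => v y i) y - dx j (fun y => u y i) y) x := fun i j x =>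
    (ddv i j x).fun_sub (ddu i j x)
  have hΦd : ∀ j x, dx j (Φ j) x =
      -(1 / 2) * (dx j (fun y => v y j) x * (∑ i, (v x i - u x i) * (v x i - u x i)) +
          v x j * ∑ i, ((dx j (fun y => v y i) x - dx j (fun y => u y i) x) * (v x i - u x i)
            + (v x i - u x i) * (dx j (fun y => v y i) x - dx j (fun y => u y i) x)))
        - ((dx j (fun y => v y j) x - dx j (fun y => u y j) x) * (q x - p x)
            + (v x j - u x j) * (dx j q x - dx j p x))
        + ν * ∑ i, ((dx j (fun y => v y i) x - dx j (fun y => u y i) x)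
              * (dx j (fun y => v y i) x - dx j (fun y => u y i) x)
            + (v x i - u x i) * (dx j (dx j (fun y => v y i)) x
              - dx j (dx j (fun y => u y i)) x)) := by
    intro j x
    have e1 : DifferentiableAt ℝ (fun y => ∑ i, (v y i - u y i) * (v y i - u y i)) x :=
      DifferentiableAt.fun_sum fun i _ => (hdW i x).fun_mul (hdW i x)
    have e2 : DifferentiableAt ℝ (fun y => v y j * ∑ i, (v y i - u y i) * (v y i - u y i)) x :=
      (dfv j x).fun_mul e1
    have e3 : DifferentiableAt ℝ (fun y => (v y j - u y j) * (q y - p y)) x :=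
      (hdW j x).fun_mul ((dq x).fun_sub (dp x))
    have e4 : DifferentiableAt ℝ (fun y => ∑ i, (v y i - u y i) *
        (dx j (fun y => v y i) y - dx j (fun y => u y i) y)) x :=
      DifferentiableAt.fun_sum fun i _ => (hdW i x).fun_mul (hdD i j x)
    have e5 : DifferentiableAt ℝ (fun y => -(1 / 2) * (v y j * ∑ i, (v y i - u y i) *
        (v y i - u y i)) - (v y j - u y j) * (q y - p y)) x :=
      (e2.const_mul _).fun_sub e3
    rw [hΦ]
    simp only []
    rw [dx_add e5 (e4.const_mul ν), dx_sub (e2.const_mul _) e3, dx_const_mul e2, dx_const_mul e4,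
      dx_mul (dfv j x) e1, dx_mul (hdW j x) ((dq x).fun_sub (dp x)),
      dx_sum _ (fun i _ => (hdW i x).fun_mul (hdW i x)),
      dx_sum _ (fun i _ => (hdW i x).fun_mul (hdD i j x)), dx_sub (dfv j x) (dfu j x),
      dx_sub (dq x) (dp x)]
    have s1 : ∀ i : Fin 3, dx j (fun y => (v y i - u y i) * (v y i - u y i)) x =
        (dx j (fun y => v y i) x - dx j (fun y => u y i) x) * (v x i - u x i)
            + (v x i - u x i) * (dx j (fun y => v y i) x - dx j (fun y => u y i) x) := by
      intro i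
      rw [dx_mul (hdW i x) (hdW i x), dx_sub (dfv i x) (dfu i x)]
    have s2 : ∀ i : Fin 3, dx j (fun y => (v y i - u y i) *
        (dx j (fun y => v y i) y - dx j (fun y => u y i) y)) x =
        ((dx j (fun y => v y i) x - dx j (fun y => u y i) x)
              * (dx j (fun y => v y i) x - dx j (fun y => u y i) x)
            + (v x i - u x i) * (dx j (dx j (fun y => v y i)) x
              - dx j (dx j (fun y => u y i)) x)) := by
      intro i
      rw [dx_mul (hdW i x) (hdD i j x), dx_sub (dfv i x) (dfu i x), dx_sub (ddv i j x) (ddu i j x)]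
    simp only [s1, s2]
  have hΦC : ∀ j, ContDiff ℝ 1 (Φ j) := by
    intro j
    have c1 : ∀ i, ContDiff ℝ 1 (fun y => u y i) := fun i => (cu i).of_le (by norm_num)
    have c2 : ∀ i, ContDiff ℝ 1 (fun y => v y i) := fun i => (cv i).of_le (by norm_num)
    have c3 : ContDiff ℝ 1 (fun x => ∑ i, (v x i - u x i) * (v x i - u x i)) :=
      ContDiff.sum fun i _ => ((c2 i).sub (c1 i)).mul ((c2 i).sub (c1 i))
    have c4 : ContDiff ℝ 1 (fun x => ∑ i, (v x i - u x i) *
        (dx j (fun y => v y i) x - dx j (fun y => u y i) x)) :=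
      ContDiff.sum fun i _ => ((c2 i).sub (c1 i)).mul ((cdv i j).sub (cdu i j))
    exact ((contDiff_const.mul ((c2 j).mul c3)).sub
      (((c2 j).sub (c1 j)).mul (hq.sub hp))).add (contDiff_const.mul c4)
  have hΦP : ∀ j, SpacePeriodic (Φ j) := by
    intro j x m
    have q1 : ∀ i, u (fun i => x i + (m i : ℝ)) i = u x i := fun i => congrFun (pu x m) i
    have q2 : ∀ i, v (fun i => x i + (m i : ℝ)) i = v x i := fun i => congrFun (pv x m) i
    have q3 : ∀ i, dx j (fun y => u y i) (fun i => x i + (m i : ℝ)) = dx j (fun y => u y i) x := by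
      intro i
      have : SpacePeriodic (fun y => u y i) := fun y m => congrFun (pu y m) i
      exact this.dx j x m
    have q4 : ∀ i, dx j (fun y => v y i) (fun i => x i + (m i : ℝ)) = dx j (fun y => v y i) x := by
      intro i
      have : SpacePeriodic (fun y => v y i) := fun y m => congrFun (pv y m) i
      exact this.dx j x m
    simp only [hΦ, q1, q2, q3, q4, pp x m, pq x m]
  have hdiv := integral_div_eq_zero hΦC hΦP
  -- pointwise identity
  have hid : ∀ x, ∑ i, (v x i - u x i) * (vt x i - ut x i) =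
      (∑ j, dx j (Φ j) x) + (- ν * (∑ i, ∑ j, (dx j (fun y => v y i) x
        - dx j (fun y => u y i) x) ^ 2)
        - ∑ i, ∑ j, (v x i - u x i) * (v x j - u x j) * dx j (fun y => u y i) x) := by
    intro x
    simp only [hΦd]
    exact energy_algebra ν (p x) (q x) (v x) (u x) (fun j => dx j p x) (fun j => dx j q x)
      (vt x) (ut x) (f x) (fun i j => dx j (fun y => v y i) x) (fun i j => dx j (fun y => u y i) x)
      (fun i j => dx j (dx j (fun y => v y i)) x) (fun i j => dx j (dx j (fun y => u y i)) x)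
      (mv x) (mu x) (dv x) (du x)
  have cont1 : Continuous (fun x => ∑ j, dx j (Φ j) x) :=
    continuous_finsetSum _ fun j _ => (contDiff_dx (n := 0) (hΦC j) j).continuous
  have hcu : ∀ i, Continuous (fun y => u y i) := fun i => (cu i).continuous
  have hcv : ∀ i, Continuous (fun y => v y i) := fun i => (cv i).continuous
  have cont2 : Continuous (fun x => (- ν * (∑ i, ∑ j, (dx j (fun y => v y i) x
        - dx j (fun y => u y i) x) ^ 2)
        - ∑ i, ∑ j, (v x i - u x i) * (v x j - u x j) * dx j (fun y => u y i) x)) := by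
    apply Continuous.sub
    · apply continuous_const.mul
      exact continuous_finsetSum _ fun i _ => continuous_finsetSum _ fun j _ =>
        (((cdv i j).continuous).sub ((cdu i j).continuous)).pow 2
    · exact continuous_finsetSum _ fun i _ => continuous_finsetSum _ fun j _ =>
        (((hcv i).sub (hcu i)).mul ((hcv j).sub (hcu j))).mul (cdu i j).continuous
  have cont3 : Continuous (fun x => ∑ i, (v x i - u x i) ^ 2) :=
    continuous_finsetSum _ fun i _ => ((hcv i).sub (hcu i)).pow 2
  simp_rw [hid]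
  rw [integral_add (cont1.continuousOn.integrableOn_compact isCompact_Icc)
    (cont2.continuousOn.integrableOn_compact isCompact_Icc), hdiv, zero_add, ← integral_const_mul]
  apply setIntegral_mono_on
    (cont2.continuousOn.integrableOn_compact isCompact_Icc)
    ((continuous_const.mul cont3).continuousOn.integrableOn_compact isCompact_Icc)
    measurableSet_Icc
  intro x hx
  have h1 := quad_bound C (fun i => v x i - u x i) (fun i j => dx j (fun y => u y i) x) (hC x hx)
  have h2 : 0 ≤ ν * (∑ i : Fin 3, ∑ j : Fin 3, (dx j (fun y => v y i) x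
        - dx j (fun y => u y i) x) ^ 2) :=
    mul_nonneg hν (Finset.sum_nonneg fun i _ => Finset.sum_nonneg fun j _ => sq_nonneg _)
  change _ ≤ 3 * C * ∑ i, (v x i - u x i) ^ 2
  beta_reduce at h1 ⊢
  rw [neg_mul]
  linarith

theorem param_continuousOn {T : ℝ} (hT : 0 ≤ T) {F : ℝ → R3 → ℝ}
    (hF : ContinuousOn (fun z : ℝ × R3 => F z.1 z.2) (Icc 0 T ×ˢ univ)) :
    ContinuousOn (fun t => ∫ x in Icc (0 : R3) 1, F t x) (Icc 0 T) := by
  have h1 : Continuous (Function.uncurry fun (t : ℝ) (x : R3) => F (projIcc 0 T hT t) x) := by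
    have : Continuous (fun z : ℝ × R3 => (((projIcc 0 T hT z.1 : Icc 0 T) : ℝ), z.2)) := by
      fun_prop
    exact hF.comp_continuous this fun z => ⟨(projIcc 0 T hT z.1).2, mem_univ _⟩
  have h2 : Continuous fun t => ∫ x in Icc (0 : R3) 1, F (projIcc 0 T hT t) x :=
    continuous_parametric_integral_of_continuous h1 isCompact_Icc
  apply h2.continuousOn.congr
  intro t ht
  simp only [projIcc_of_mem hT ht]

theorem param_hasDerivAt {T : ℝ} {F F' : ℝ → R3 → ℝ}
    (hF : ContinuousOn (fun z : ℝ × R3 => F z.1 z.2) (Icc 0 T ×ˢ univ))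
    (hF' : ContinuousOn (fun z : ℝ × R3 => F' z.1 z.2) (Icc 0 T ×ˢ univ))
    (hd : ∀ t ∈ Ioo 0 T, ∀ x, HasDerivAt (fun s => F s x) (F' t x) t) {t : ℝ}
    (ht : t ∈ Ioo 0 T) :
    HasDerivAt (fun s => ∫ x in Icc (0 : R3) 1, F s x) (∫ x in Icc (0 : R3) 1, F' t x) t := by
  have hsl : ∀ {G : ℝ → R3 → ℝ}, ContinuousOn (fun z : ℝ × R3 => G z.1 z.2) (Icc 0 T ×ˢ univ) →
      ∀ s ∈ Icc 0 T, Continuous (G s) := by
    intro G hG s hs
    have : Continuous (fun x : R3 => ((s, x) : ℝ × R3)) := by fun_prop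
    exact hG.comp_continuous this fun x => ⟨hs, mem_univ _⟩
  have hcomp : IsCompact (Icc (0 : ℝ) T ×ˢ Icc (0 : R3) 1) := isCompact_Icc.prod isCompact_Icc
  obtain ⟨C, hC⟩ := hcomp.exists_bound_of_continuousOn
    (hF'.mono (prod_mono subset_rfl (subset_univ _)))
  refine (hasDerivAt_integral_of_dominated_loc_of_deriv_le (bound := fun _ => C)
    (s := Ioo 0 T) (Ioo_mem_nhds ht.1 ht.2) ?_ ?_ ?_ ?_ ?_ ?_).2
  · filter_upwards [Ioo_mem_nhds ht.1 ht.2] with s hs
    exact (hsl hF s (Ioo_subset_Icc_self hs)).aestronglyMeasurable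
  · exact (hsl hF t (Ioo_subset_Icc_self ht)).continuousOn.integrableOn_compact isCompact_Icc
  · exact (hsl hF' t (Ioo_subset_Icc_self ht)).aestronglyMeasurable
  · filter_upwards [ae_restrict_mem measurableSet_Icc] with x hx s hs
    exact hC (s, x) ⟨Ioo_subset_Icc_self hs, hx⟩
  · exact continuous_const.continuousOn.integrableOn_compact isCompact_Icc
  · exact Eventually.of_forall fun x s hs => hd s hs x

theorem eq_zero_of_periodic {g : R3 → ℝ} (hg : Continuous g) (hP : SpacePeriodic g)
    (h0 : ∀ x, 0 ≤ g x) (hi : ∫ x in Icc (0 : R3) 1, g x = 0) : ∀ x, g x = 0 := by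
  have hint : IntegrableOn g (Icc (0 : R3) 1) :=
    hg.continuousOn.integrableOn_compact isCompact_Icc
  rw [setIntegral_eq_zero_iff_of_nonneg_ae (Eventually.of_forall h0) hint] at hi
  have hae : g =ᵐ[volume.restrict (univ.pi fun _ : Fin 3 => Ioo (0 : ℝ) 1)] fun _ => (0 : ℝ) := by
    apply ae_mono (Measure.restrict_mono _ le_rfl) hi
    intro x hx
    exact ⟨fun i => (hx i (mem_univ i)).1.le, fun i => (hx i (mem_univ i)).2.le⟩
  have hop : IsOpen (univ.pi fun _ : Fin 3 => Ioo (0 : ℝ) 1) :=
    isOpen_set_pi finite_univ fun _ _ => isOpen_Ioo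
  have h1 := Measure.eqOn_open_of_ae_eq hae hop hg.continuousOn continuousOn_const
  have h2 : EqOn g (fun _ => (0 : ℝ)) (closure (univ.pi fun _ : Fin 3 => Ioo (0 : ℝ) 1)) :=
    h1.closure hg continuous_const
  rw [closure_pi_set] at h2
  intro x
  have h3 := hP (fun i => Int.fract (x i)) (fun i => ⌊x i⌋)
  simp only [Int.fract_add_floor] at h3
  rw [h3]
  apply h2
  intro i _
  rw [closure_Ioo (by norm_num)]
  exact ⟨Int.fract_nonneg _, (Int.fract_lt_one _).le⟩

theorem derivWithin_apply' {I : Set ℝ} (hI : UniqueDiffOn ℝ I) {g : ℝ → R3} {t : ℝ} (ht : t ∈ I)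
    (hg : DifferentiableWithinAt ℝ g I t) (i : Fin 3) :
    derivWithin (fun s => g s i) I t = derivWithin g I t i := by
  have h := hasDerivWithinAt_pi.1 hg.hasDerivWithinAt i
  exact h.derivWithin (hI t ht)

/-- Uniqueness of classical solutions. -/
theorem uniqueness {ν : ℝ} (hν : 0 ≤ ν) {f : ℝ → R3 → R3} {T : ℝ} (hT : 0 < T)
    {u v : ℝ → R3 → R3} {p q : ℝ → R3 → ℝ}
    (h1 : IsClassicalSolution ν f (Icc 0 T) u p) (h2 : IsClassicalSolution ν f (Icc 0 T) v q) :
    ∀ t ∈ Icc 0 T, v t = u t ∧ q t = p t := by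
  set I : Set ℝ := Icc 0 T with hI
  have hUD : UniqueDiffOn ℝ I := uniqueDiffOn_Icc hT
  set ut : ℝ → R3 → R3 := fun t x => derivWithin (fun s => u s x) I t with hut
  set vt : ℝ → R3 → R3 := fun t x => derivWithin (fun s => v s x) I t with hvt
  set F : ℝ → R3 → ℝ := fun t x => ∑ i, (v t x i - u t x i) ^ 2 with hF
  set F' : ℝ → R3 → ℝ := fun t x => ∑ i, 2 * (v t x i - u t x i) * (vt t x i - ut t x i) with hF'
  have comp : ∀ {G : ℝ × R3 → R3} {S : Set (ℝ × R3)}, ContinuousOn G S → ∀ i,
      ContinuousOn (fun z => G z i) S := fun hG i => (continuous_apply i).comp_continuousOn hG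
  have cF : ContinuousOn (fun z : ℝ × R3 => F z.1 z.2) (I ×ˢ univ) :=
    continuousOn_finsetSum _ fun i _ => ((comp h2.cont_u i).sub (comp h1.cont_u i)).pow 2
  have cF' : ContinuousOn (fun z : ℝ × R3 => F' z.1 z.2) (I ×ˢ univ) :=
    continuousOn_finsetSum _ fun i _ =>
      (continuousOn_const.mul ((comp h2.cont_u i).sub (comp h1.cont_u i))).mul
        ((comp h2.cont_dt i).sub (comp h1.cont_dt i))
  have hd : ∀ t ∈ Ioo 0 T, ∀ x, HasDerivAt (fun s => F s x) (F' t x) t := by
    intro t ht x
    have htI : t ∈ I := Ioo_subset_Icc_self ht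
    have hn : I ∈ 𝓝 t := Icc_mem_nhds ht.1 ht.2
    have e1 : ∀ i, HasDerivAt (fun s => u s x i) (ut t x i) t := fun i =>
      (hasDerivWithinAt_pi.1 (h1.time_diff x t htI).hasDerivWithinAt i).hasDerivAt hn
    have e2 : ∀ i, HasDerivAt (fun s => v s x i) (vt t x i) t := fun i =>
      (hasDerivWithinAt_pi.1 (h2.time_diff x t htI).hasDerivWithinAt i).hasDerivAt hn
    have e3 : ∀ i ∈ (Finset.univ : Finset (Fin 3)), HasDerivAt (fun s => (v s x i - u s x i) ^ 2)
        (2 * (v t x i - u t x i) * (vt t x i - ut t x i)) t := by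
      intro i _
      have := ((e2 i).fun_sub (e1 i)).fun_pow 2
      simpa using this
    exact HasDerivAt.fun_sum e3
  -- bound of the gradient of `u`
  have hcomp : IsCompact (I ×ˢ Icc (0 : R3) 1) := isCompact_Icc.prod isCompact_Icc
  have hex : ∀ i j : Fin 3, ∃ C, ∀ z ∈ I ×ˢ Icc (0 : R3) 1,
      ‖dx j (fun y => u z.1 y i) z.2‖ ≤ C := fun i j =>
    hcomp.exists_bound_of_continuousOn
      ((h1.cont_dx i j).mono (prod_mono subset_rfl (subset_univ _)))
  choose C hC using hex
  set K : ℝ := ∑ i, ∑ j, |C i j| with hK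
  have hCK : ∀ t ∈ I, ∀ x ∈ Icc (0 : R3) 1, ∀ i j, |dx j (fun y => u t y i) x| ≤ K := by
    intro t ht x hx i j
    have a1 := hC i j (t, x) ⟨ht, hx⟩
    rw [Real.norm_eq_abs] at a1
    calc |dx j (fun y => u t y i) x| ≤ C i j := a1
      _ ≤ |C i j| := le_abs_self _
      _ ≤ ∑ j, |C i j| := Finset.single_le_sum (f := fun j => |C i j|)
          (fun j _ => abs_nonneg _) (Finset.mem_univ j)
      _ ≤ K := Finset.single_le_sum (f := fun i => ∑ j, |C i j|)
          (fun i _ => Finset.sum_nonneg fun j _ => abs_nonneg _) (Finset.mem_univ i)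
  set e : ℝ → ℝ := fun t => ∫ x in Icc (0 : R3) 1, F t x with he
  have ce : ContinuousOn e I := param_continuousOn hT.le cF
  have de : ∀ t ∈ Ioo 0 T, HasDerivAt e (∫ x in Icc (0 : R3) 1, F' t x) t := fun t ht =>
    param_hasDerivAt cF cF' hd ht
  have hle : ∀ t ∈ Ioo 0 T, ∫ x in Icc (0 : R3) 1, F' t x ≤ (6 * K) * e t := by
    intro t ht
    have htI : t ∈ I := Ioo_subset_Icc_self ht
    have := energy_slice (C := K) hν (h1.space_C2 t htI) (h2.space_C2 t htI) (h1.space_C1 t htI)
      (h2.space_C1 t htI) (h1.periodic_u t htI) (h2.periodic_u t htI) (h1.periodic_p t htI)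
      (h2.periodic_p t htI) (ut := ut t) (vt := vt t) (f := f t)
      (fun x i => by
        have := h1.momentum t htI x i
        rwa [derivWithin_apply' hUD htI (h1.time_diff x t htI) i] at this)
      (fun x i => by
        have := h2.momentum t htI x i
        rwa [derivWithin_apply' hUD htI (h2.time_diff x t htI) i] at this)
      (h1.div_free t htI) (h2.div_free t htI) (hCK t htI)
    have h3 : ∫ x in Icc (0 : R3) 1, F' t x =
        2 * ∫ x in Icc (0 : R3) 1, ∑ i, (v t x i - u t x i) * (vt t x i - ut t x i) := by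
      rw [← integral_const_mul]
      congr 1
      funext x
      rw [hF', Finset.mul_sum]
      apply Finset.sum_congr rfl
      intro i _
      ring
    rw [h3]
    calc 2 * ∫ x in Icc (0 : R3) 1, ∑ i, (v t x i - u t x i) * (vt t x i - ut t x i)
        ≤ 2 * (3 * K * ∫ x in Icc (0 : R3) 1, ∑ i, (v t x i - u t x i) ^ 2) :=
          mul_le_mul_of_nonneg_left this (by norm_num)
      _ = (6 * K) * e t := by
          rw [he]
          ring
  -- Gronwall
  set g : ℝ → ℝ := fun t => e t * Real.exp (-(6 * K) * t) with hg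
  have dg : ∀ t ∈ Ioo 0 T, HasDerivAt g ((∫ x in Icc (0 : R3) 1, F' t x) *
      Real.exp (-(6 * K) * t) + e t * (Real.exp (-(6 * K) * t) * (-(6 * K)))) t := by
    intro t ht
    have l1 : HasDerivAt (fun t : ℝ => -(6 * K) * t) (-(6 * K)) t := by
      simpa using (hasDerivAt_id t).const_mul (-(6 * K))
    exact (de t ht).fun_mul l1.exp
  have anti : AntitoneOn g I := by
    apply antitoneOn_of_deriv_nonpos (convex_Icc 0 T)
    · exact ce.mul (by fun_prop)
    · intro t ht
      rw [interior_Icc] at ht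
      exact (dg t ht).differentiableAt.differentiableWithinAt
    · intro t ht
      rw [interior_Icc] at ht
      rw [(dg t ht).deriv]
      have := hle t ht
      have hp := Real.exp_pos (-(6 * K) * t)
      nlinarith
  have hF0 : ∀ t x, 0 ≤ F t x := fun t x => Finset.sum_nonneg fun i _ => sq_nonneg _
  have he0 : ∀ t, 0 ≤ e t := fun t => integral_nonneg fun x => hF0 t x
  have hg0 : g 0 = 0 := by
    have : e 0 = 0 := by
      have hz : ∀ x, F 0 x = 0 := by
        intro x
        simp [hF, h1.initial x, h2.initial x]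
      simp [he, hz]
    simp [hg, this]
  have hez : ∀ t ∈ I, e t = 0 := by
    intro t ht
    have h3 := anti (left_mem_Icc.2 hT.le) ht ht.1
    rw [hg0] at h3
    have hp := Real.exp_pos (-(6 * K) * t)
    have h4 : e t ≤ 0 := by
      by_contra hcon
      push Not at hcon
      have : 0 < g t := mul_pos hcon hp
      linarith
    exact le_antisymm h4 (he0 t)
  have hvu : ∀ t ∈ I, v t = u t := by
    intro t ht
    have hc : Continuous (F t) := by
      apply continuous_finsetSum _ fun i _ => ?_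
      have a1 : Continuous (fun y => v t y i) := (contDiff_pi.1 (h2.space_C2 t ht) i).continuous
      have a2 : Continuous (fun y => u t y i) := (contDiff_pi.1 (h1.space_C2 t ht) i).continuous
      exact (a1.sub a2).pow 2
    have hP : SpacePeriodic (F t) := by
      intro x m
      simp only [hF, h1.periodic_u t ht x m, h2.periodic_u t ht x m]
    have hz := eq_zero_of_periodic hc hP (hF0 t) (hez t ht)
    funext x i
    have h3 := hz x
    rw [hF] at h3
    simp only [] at h3
    rw [Finset.sum_eq_zero_iff_of_nonneg (fun i _ => sq_nonneg _)] at h3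
    have h4 := h3 i (Finset.mem_univ i)
    have h5 : v t x i - u t x i = 0 := by simpa using h4
    linarith
  intro t ht
  refine ⟨hvu t ht, ?_⟩
  have hderiv : ∀ x i, derivWithin (fun s => v s x i) I t = derivWithin (fun s => u s x i) I t := by
    intro x i
    apply derivWithin_congr
    · intro s hs
      simp [hvu s hs]
    · simp [hvu t ht]
  have hdp : ∀ x i, dx i (q t) x = dx i (p t) x := by
    intro x i
    have m1 := h1.momentum t ht x i
    have m2 := h2.momentum t ht x i
    rw [hvu t ht, hderiv x i] at m2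
    linarith
  have dp : Differentiable ℝ (p t) := (h1.space_C1 t ht).differentiable (by simp)
  have dq : Differentiable ℝ (q t) := (h2.space_C1 t ht).differentiable (by simp)
  have hfd : ∀ x, fderiv ℝ (fun y => q t y - p t y) x = 0 := by
    intro x
    apply ContinuousLinearMap.ext
    intro w
    have hw : w = ∑ j, w j • (Pi.single j (1 : ℝ) : R3) := by
      funext i
      simp [Finset.sum_apply, Pi.single_apply]
    rw [hw, map_sum]
    simp only [map_smul, zero_apply]
    apply Finset.sum_eq_zero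
    intro j _
    have : fderiv ℝ (fun y => q t y - p t y) x (Pi.single j 1) = 0 := by
      rw [← dx_eq_fderiv ((dq x).fun_sub (dp x)), dx_sub (dq x) (dp x), hdp x j, sub_self]
    rw [this, smul_zero]
  have hconst := is_const_of_fderiv_eq_zero (dq.fun_sub dp) hfd
  have hint : ∫ x in Icc (0 : R3) 1, (q t x - p t x) = 0 := by
    rw [integral_sub (dq.continuous.continuousOn.integrableOn_compact isCompact_Icc)
      (dp.continuous.continuousOn.integrableOn_compact isCompact_Icc), h1.mean_zero t ht,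
      h2.mean_zero t ht, sub_zero]
  funext x
  have hcc : ∀ y, q t y - p t y = q t x - p t x := fun y => hconst y x
  simp_rw [hcc] at hint
  rw [setIntegral_const] at hint
  have hvol : (volume.real (Icc (0 : R3) 1)) = 1 := by
    rw [Measure.real, Real.volume_Icc_pi]
    simp
  rw [hvol, one_smul] at hint
  linarith

end Vale.Agent.P113
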