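import Vale.Agent.P113.Field
import Vale.Agent.P113.Energy2

/-! The explicit flow and its force. -/

namespace Vale.Agent.P113

open Set Filter Topology MeasureTheory

/-- The displacement factor of the loading stage for the `n`-th tooth. -/
noncomputable def kap (n : ℕ) : ℝ := 50 / 16 ^ n

/-- The velocity field. -/
noncomputable def vel (a : ℕ → ℝ) (n : ℕ) (t : ℝ) (x : R3) : R3 :=
  ![pulse t * profile a (x 1), kap n * bump t, 0]

/-- The force. -/
noncomputable def frc (ν : ℝ) (a : ℕ → ℝ) (n : ℕ) (t : ℝ) (x : R3) : R3 :=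
  ![iteratedDeriv 1 pulse t * profile a (x 1) - ν * (pulse t * iteratedDeriv 2 (profile a) (x 1)),
    kap n * iteratedDeriv 1 bump t, 0]

theorem dx_comp_one (φ : ℝ → ℝ) (j : Fin 3) (x : R3) :
    dx j (fun y => φ (y 1)) x = if j = 1 then deriv φ (x 1) else 0 := by
  unfold dx
  split_ifs with h
  · subst h
    simp
  · have : ∀ s : ℝ, Function.update x j s 1 = x 1 := fun s =>
      Function.update_of_ne (fun h' => h h'.symm) _ _
    simp [this]

theorem contDiff_smooth_of {F : ℝ → ℝ} (hF : ContDiff ℝ (⊤ : ℕ∞) F) (k : ℕ) :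
    ContDiff ℝ (⊤ : ℕ∞) (iteratedDeriv k F) := by
  rw [contDiff_infty]
  intro m
  exact (contDiff_infty.1 hF (m + k)).iterate_deriv' m k |> fun h => by
    rwa [← iteratedDeriv_eq_iterate] at h

variable {a : ℕ → ℝ} (ha : ∀ n, |a n| ≤ 1 / (n.factorial : ℝ))
include ha

theorem dx_vel (n : ℕ) (t : ℝ) (i j : Fin 3) (x : R3) :
    dx j (fun y => vel a n t y i) x =
      if i = 0 ∧ j = 1 then pulse t * iteratedDeriv 1 (profile a) (x 1) else 0 := by
  fin_cases i
  · have h := dx_comp_one (fun s => pulse t * profile a s) j x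
    have hd : Differentiable ℝ (profile a) := (contDiff_profile ha).differentiable (by simp)
    have h2 : deriv (fun s => pulse t * profile a s) (x 1) =
        pulse t * iteratedDeriv 1 (profile a) (x 1) := by
      rw [iteratedDeriv_one, deriv_const_mul _ (hd (x 1))]
    rw [h2] at h
    simpa [vel] using h
  · simp [vel, dx]
  · simp [vel, dx]

theorem dxdx_vel (n : ℕ) (t : ℝ) (i j k : Fin 3) (x : R3) :
    dx k (dx j (fun y => vel a n t y i)) x =
      if i = 0 ∧ j = 1 ∧ k = 1 then pulse t * iteratedDeriv 2 (profile a) (x 1) else 0 := by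
  have h0 : dx j (fun y => vel a n t y i) = fun x =>
      if i = 0 ∧ j = 1 then pulse t * iteratedDeriv 1 (profile a) (x 1) else 0 := by
    funext x
    exact dx_vel ha n t i j x
  rw [h0]
  by_cases hij : i = 0 ∧ j = 1
  · simp only [hij, and_self, if_true, true_and]
    have h := dx_comp_one (fun s => pulse t * iteratedDeriv 1 (profile a) s) k x
    have hd : Differentiable ℝ (iteratedDeriv 1 (profile a)) :=
      (contDiff_smooth_of (contDiff_profile ha) 1).differentiable (by simp)
    have h2 : deriv (fun s => pulse t * iteratedDeriv 1 (profile a) s) (x 1) =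
        pulse t * iteratedDeriv 2 (profile a) (x 1) := by
      rw [deriv_const_mul _ (hd (x 1)), ← iteratedDeriv_succ]
    rw [h2] at h
    exact h
  · have hij' : ¬ (i = 0 ∧ j = 1 ∧ k = 1) := fun h => hij ⟨h.1, h.2.1⟩
    simp only [hij, hij', if_false]
    simp [dx]

omit ha in
theorem bump_mul_pulse (t : ℝ) : bump t * pulse t = 0 := by
  rcases le_total t 1 with h | h
  · rw [pulse_eq_zero h, mul_zero]
  · rw [bump_vanishesOff t (Or.inr h), zero_mul]

omit ha in
theorem hasDerivAt_vel (n : ℕ) (t : ℝ) (x : R3) :
    HasDerivAt (fun s => vel a n s x)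
      ![iteratedDeriv 1 pulse t * profile a (x 1), kap n * iteratedDeriv 1 bump t, 0] t := by
  rw [hasDerivAt_pi]
  have hp : HasDerivAt pulse (iteratedDeriv 1 pulse t) t := by
    rw [iteratedDeriv_one]
    exact (contDiff_pulse.differentiable (by simp) t).hasDerivAt
  have hb : HasDerivAt bump (iteratedDeriv 1 bump t) t := by
    rw [iteratedDeriv_one]
    exact (contDiff_bump.differentiable (by simp) t).hasDerivAt
  intro i
  fin_cases i
  · exact hp.mul_const _
  · exact hb.const_mul _
  · exact hasDerivAt_const _ _

theorem contDiff_vel (n : ℕ) :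
    ContDiff ℝ (⊤ : ℕ∞) (fun z : ℝ × R3 => vel a n z.1 z.2) := by
  rw [contDiff_pi]
  have h1 : ContDiff ℝ (⊤ : ℕ∞) (fun z : ℝ × R3 => z.2 1) :=
    (contDiff_pi.1 contDiff_snd) 1
  intro i
  fin_cases i
  · exact (contDiff_pulse.comp contDiff_fst).mul ((contDiff_profile ha).comp h1)
  · exact contDiff_const.mul (contDiff_bump.comp contDiff_fst)
  · exact contDiff_const

theorem contDiff_frc (ν : ℝ) (n : ℕ) :
    ContDiff ℝ (⊤ : ℕ∞) (fun z : ℝ × R3 => frc ν a n z.1 z.2) := by
  rw [contDiff_pi]
  have h1 : ContDiff ℝ (⊤ : ℕ∞) (fun z : ℝ × R3 => z.2 1) :=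
    (contDiff_pi.1 contDiff_snd) 1
  intro i
  fin_cases i
  · exact (((contDiff_smooth_of contDiff_pulse 1).comp contDiff_fst).mul
      ((contDiff_profile ha).comp h1)).sub (contDiff_const.mul
      ((contDiff_pulse.comp contDiff_fst).mul
        ((contDiff_smooth_of (contDiff_profile ha) 2).comp h1)))
  · exact contDiff_const.mul ((contDiff_smooth_of contDiff_bump 1).comp contDiff_fst)
  · exact contDiff_const

omit ha in
theorem periodic_vel (n : ℕ) (t : ℝ) : SpacePeriodic (vel a n t) := by
  intro x m
  simp only [vel, profile_add_int]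

theorem periodic_frc (ν : ℝ) (n : ℕ) (t : ℝ) : SpacePeriodic (frc ν a n t) := by
  intro x m
  have h : ∀ (y : ℝ) (m : ℤ), iteratedDeriv 2 (profile a) (y + m) =
      iteratedDeriv 2 (profile a) y := by
    intro y m
    rw [iteratedDeriv_profile ha, iteratedDeriv_profile ha]
    simp
  simp only [frc, profile_add_int, h]

theorem isClassicalSolution_vel (ν : ℝ) (n : ℕ) {I : Set ℝ} (hI : UniqueDiffOn ℝ I) :
    IsClassicalSolution ν (frc ν a n) I (vel a n) (fun _ _ => 0) where
  periodic_u := fun t _ => periodic_vel n t
  periodic_p := fun t _ x m => rfl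
  time_diff := fun x t _ => (hasDerivAt_vel n t x).differentiableAt.differentiableWithinAt
  space_C2 := by
    intro t _
    have h : ContDiff ℝ (⊤ : ℕ∞) (fun x : R3 => vel a n t x) :=
      (contDiff_vel ha n).comp (contDiff_const.prodMk contDiff_id)
    exact_mod_cast contDiff_infty.1 h 2
  space_C1 := fun t _ => contDiff_const
  cont_u := (contDiff_vel ha n).continuous.continuousOn
  cont_dt := by
    have h : ∀ z ∈ I ×ˢ (univ : Set R3), derivWithin (fun s => vel a n s z.2) I z.1 =
        ![iteratedDeriv 1 pulse z.1 * profile a (z.2 1), kap n * iteratedDeriv 1 bump z.1, 0] := by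
      intro z hz
      exact (hasDerivAt_vel n z.1 z.2).hasDerivWithinAt.derivWithin (hI z.1 hz.1)
    apply ContinuousOn.congr _ h
    apply Continuous.continuousOn
    have c1 : Continuous (iteratedDeriv 1 pulse) := (contDiff_smooth_of contDiff_pulse 1).continuous
    have c2 : Continuous (iteratedDeriv 1 bump) := (contDiff_smooth_of contDiff_bump 1).continuous
    have c3 : Continuous (profile a) := (contDiff_profile ha).continuous
    apply continuous_pi
    intro i
    fin_cases i
    · simp only [Fin.zero_eta, Matrix.cons_val_zero]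
      fun_prop
    · simp only [Fin.mk_one, Matrix.cons_val_one, Matrix.cons_val_zero]
      fun_prop
    · simp only [Fin.reduceFinMk, Matrix.cons_val]
      fun_prop
  cont_dx := by
    intro i j
    simp only [dx_vel ha]
    have c1 : Continuous pulse := contDiff_pulse.continuous
    have c3 : Continuous (iteratedDeriv 1 (profile a)) :=
      (contDiff_smooth_of (contDiff_profile ha) 1).continuous
    apply Continuous.continuousOn
    split_ifs <;> fun_prop
  cont_dxdx := by
    intro i j k
    simp only [dxdx_vel ha]
    have c1 : Continuous pulse := contDiff_pulse.continuous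
    have c3 : Continuous (iteratedDeriv 2 (profile a)) :=
      (contDiff_smooth_of (contDiff_profile ha) 2).continuous
    apply Continuous.continuousOn
    split_ifs <;> fun_prop
  cont_p := continuousOn_const
  cont_dp := by
    intro j
    simp only [dx, deriv_const]
    exact continuousOn_const
  momentum := by
    intro t ht x i
    rw [derivWithin_apply' hI ht (hasDerivAt_vel n t x).differentiableAt.differentiableWithinAt,
      (hasDerivAt_vel n t x).hasDerivWithinAt.derivWithin (hI t ht)]
    simp only [dx_vel ha, dxdx_vel ha, Fin.sum_univ_three]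
    have hbp := bump_mul_pulse t
    fin_cases i
    · have h0 : bump t = 0 ∨ pulse t = 0 := mul_eq_zero.1 hbp
      rcases h0 with h0 | h0 <;> simp [vel, frc, dx, h0]
    · simp [vel, frc, dx]
    · simp [vel, frc, dx]
  div_free := by
    intro t _ x
    simp only [dx_vel ha, Fin.sum_univ_three]
    simp
  initial := by
    intro x
    funext i
    fin_cases i
    · simp [vel, pulse_eq_zero]
    · simp [vel, bump_vanishesOff 0 (Or.inl le_rfl)]
    · simp [vel]
  mean_zero := by
    intro t _
    simp

end Vale.Agent.P113
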