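import Vale.Agent.P113.Flow

/-! Trajectories of the explicit flow. -/

namespace Vale.Agent.P113

open Set Filter Topology MeasureTheory

theorem const_of_deriv_zero {h : ℝ → ℝ} (hd : ∀ t, 0 ≤ t → HasDerivWithinAt h 0 (Ici 0) t) {t : ℝ}
    (ht : 0 ≤ t) : h t = h 0 := by
  have hc : ContinuousOn h (Icc 0 t) := fun s hs =>
    ((hd s hs.1).continuousWithinAt).mono Icc_subset_Ici_self
  have hd' : ∀ x ∈ Ico 0 t, HasDerivWithinAt h 0 (Ici x) x := fun x hx =>
    (hd x hx.1).mono (Ici_subset_Ici.2 hx.1)
  exact constant_of_has_deriv_right_zero hc hd' t (right_mem_Icc.2 ht)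

theorem continuous_bump : Continuous bump := contDiff_bump.continuous

theorem continuous_pulse : Continuous pulse := contDiff_pulse.continuous

/-- The primitive of the bump. -/
noncomputable def primB (t : ℝ) : ℝ := ∫ s in (0 : ℝ)..t, bump s

/-- The primitive of the pulse. -/
noncomputable def primP (t : ℝ) : ℝ := ∫ s in (0 : ℝ)..t, pulse s

theorem hasDerivAt_primB (t : ℝ) : HasDerivAt primB (bump t) t :=
  intervalIntegral.integral_hasDerivAt_right (continuous_bump.intervalIntegrable _ _)
    (continuous_bump.stronglyMeasurableAtFilter _ _) continuous_bump.continuousAt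

theorem hasDerivAt_primP (t : ℝ) : HasDerivAt primP (pulse t) t :=
  intervalIntegral.integral_hasDerivAt_right (continuous_pulse.intervalIntegrable _ _)
    (continuous_pulse.stronglyMeasurableAtFilter _ _) continuous_pulse.continuousAt

theorem primB_zero : primB 0 = 0 := intervalIntegral.integral_same

theorem primP_zero : primP 0 = 0 := intervalIntegral.integral_same

theorem primB_of_one_le {t : ℝ} (ht : 1 ≤ t) : primB t = primB 1 := by
  unfold primB
  rw [← intervalIntegral.integral_add_adjacent_intervals
    (continuous_bump.intervalIntegrable 0 1) (continuous_bump.intervalIntegrable 1 t)]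
  have : ∫ s in (1 : ℝ)..t, bump s = 0 := by
    have h : ∀ s ∈ uIcc 1 t, bump s = 0 := by
      intro s hs
      rw [uIcc_of_le ht] at hs
      exact bump_vanishesOff s (Or.inr hs.1)
    rw [intervalIntegral.integral_congr h]
    simp
  rw [this, add_zero]

theorem bump_le (t : ℝ) : bump t ≤ Real.exp (-4) := by
  by_cases h : 0 < t ∧ t < 1
  · rw [bump_eq_exp h.1 h.2]
    apply Real.exp_le_exp.2
    have h1 : 0 < t * (1 - t) := mul_pos h.1 (by linarith [h.2])
    have h2 : t * (1 - t) ≤ 1 / 4 := by nlinarith [sq_nonneg (t - 1 / 2)]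
    have h3 : 4 ≤ (t * (1 - t))⁻¹ := by
      rw [le_inv_comm₀ (by norm_num) h1]
      linarith
    linarith
  · have : bump t = 0 := by
      apply bump_vanishesOff
      rw [not_and_or, not_lt, not_lt] at h
      exact h
    rw [this]
    exact (Real.exp_pos _).le

theorem le_bump {t : ℝ} (h1 : 1 / 3 ≤ t) (h2 : t ≤ 2 / 3) : Real.exp (-5) ≤ bump t := by
  rw [bump_eq_exp (by linarith) (by linarith)]
  apply Real.exp_le_exp.2
  have h3 : 2 / 9 ≤ t * (1 - t) := by nlinarith
  have h4 : (t * (1 - t))⁻¹ ≤ (2 / 9)⁻¹ := inv_anti₀ (by norm_num) h3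
  have h5 : ((2 : ℝ) / 9)⁻¹ ≤ 5 := by norm_num
  linarith

theorem primB_lt : 50 * primB 1 < 1 := by
  have h1 : primB 1 ≤ Real.exp (-4) := by
    have : primB 1 ≤ ∫ s in (0 : ℝ)..1, Real.exp (-4) := by
      apply intervalIntegral.integral_mono_on (by norm_num)
        (continuous_bump.intervalIntegrable _ _) (continuous_const.intervalIntegrable _ _)
      intro x _
      exact bump_le x
    simpa using this
  have h2 : 50 < Real.exp 4 := by
    have h3 : Real.exp 4 = Real.exp 1 ^ 4 := by
      rw [← Real.exp_nat_mul]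
      norm_num
    rw [h3]
    have h4 : (2.7 : ℝ) < Real.exp 1 := lt_trans (by norm_num) Real.exp_one_gt_d9
    calc (50 : ℝ) < 2.7 ^ 4 := by norm_num
      _ < Real.exp 1 ^ 4 := pow_lt_pow_left₀ h4 (by norm_num) (by norm_num)
  have h3 : Real.exp (-4) < 1 / 50 := by
    rw [Real.exp_neg, inv_eq_one_div]
    exact one_div_lt_one_div_of_lt (by norm_num) h2
  linarith

theorem lt_primB : 1 < 800 * primB 1 := by
  have h1 : 1 / 3 * Real.exp (-5) ≤ primB 1 := by
    have e1 : primB 1 = (∫ s in (0 : ℝ)..(1 / 3), bump s) + (∫ s in (1 / 3 : ℝ)..(2 / 3), bump s) +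
        ∫ s in (2 / 3 : ℝ)..1, bump s := by
      unfold primB
      rw [intervalIntegral.integral_add_adjacent_intervals
          (continuous_bump.intervalIntegrable _ _) (continuous_bump.intervalIntegrable _ _),
        intervalIntegral.integral_add_adjacent_intervals
          (continuous_bump.intervalIntegrable _ _) (continuous_bump.intervalIntegrable _ _)]
    have e2 : 0 ≤ ∫ s in (0 : ℝ)..(1 / 3), bump s :=
      intervalIntegral.integral_nonneg (by norm_num) fun x _ => bump_nonneg x
    have e3 : 0 ≤ ∫ s in (2 / 3 : ℝ)..1, bump s :=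
      intervalIntegral.integral_nonneg (by norm_num) fun x _ => bump_nonneg x
    have e4 : ∫ s in (1 / 3 : ℝ)..(2 / 3), Real.exp (-5) ≤ ∫ s in (1 / 3 : ℝ)..(2 / 3), bump s := by
      apply intervalIntegral.integral_mono_on (by norm_num)
        (continuous_const.intervalIntegrable _ _) (continuous_bump.intervalIntegrable _ _)
      intro x hx
      exact le_bump hx.1 hx.2
    rw [intervalIntegral.integral_const, smul_eq_mul] at e4
    have e5 : (2 / 3 - 1 / 3 : ℝ) = 1 / 3 := by norm_num
    rw [e5] at e4
    linarith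
  have h2 : Real.exp 5 < 200 := by
    have h3 : Real.exp 5 = Real.exp 1 ^ 5 := by
      rw [← Real.exp_nat_mul]
      norm_num
    rw [h3]
    have h4 : Real.exp 1 < 2.8 := lt_trans Real.exp_one_lt_d9 (by norm_num)
    calc Real.exp 1 ^ 5 < 2.8 ^ 5 := pow_lt_pow_left₀ h4 (Real.exp_pos _).le (by norm_num)
      _ < 200 := by norm_num
  have h3 : 1 / 200 < Real.exp (-5) := by
    rw [Real.exp_neg, inv_eq_one_div]
    exact one_div_lt_one_div_of_lt (Real.exp_pos _) h2
  linarith

theorem primB_one_pos : 0 < primB 1 := by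
  have := lt_primB
  linarith

/-- The pulse has infinite integral. -/
theorem tendsto_primP : Tendsto primP atTop atTop := by
  set g : ℝ → ℝ := glue (fun _ => 1) bump with hg
  have cg : Continuous g := (contDiff_glue _ contDiff_bump bump_vanishesOff).continuous
  have hper : Function.Periodic g 1 := by
    intro t
    have := glue_add_int (fun _ => 1) bump 1 t rfl
    simpa using this
  have hg1 : ∀ t, 1 ≤ t → pulse t = g t := by
    intro t ht
    have h := iteratedDeriv_pulse 0 t
    simp only [iteratedDeriv_zero, if_pos ht] at h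
    rw [h, hg]
    simp [glue]
  have hint : 0 < ∫ x in (0 : ℝ)..1, g x := by
    have : ∫ x in (0 : ℝ)..1, g x = primB 1 := by
      unfold primB
      apply intervalIntegral.integral_congr
      intro x hx
      rw [uIcc_of_le (by norm_num)] at hx
      rcases eq_or_lt_of_le hx.2 with h1 | h1
      · rw [h1]
        simp [hg, glue, bump_vanishesOff 0 (Or.inl le_rfl), bump_vanishesOff 1 (Or.inr le_rfl)]
      · have : Int.fract x = x := Int.fract_eq_self.2 ⟨hx.1, h1⟩
        simp [hg, glue, this]
    rw [this]
    exact primB_one_pos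
  have ht := hper.tendsto_atTop_intervalIntegral_of_pos hint one_pos
  have h2 : ∀ t, 1 ≤ t → primP t = (∫ x in (0 : ℝ)..t, g x) + (primP 1 - ∫ x in (0 : ℝ)..1, g x) := by
    intro t ht
    have e1 : primP t = primP 1 + ∫ x in (1 : ℝ)..t, pulse x := by
      unfold primP
      rw [intervalIntegral.integral_add_adjacent_intervals
        (continuous_pulse.intervalIntegrable _ _) (continuous_pulse.intervalIntegrable _ _)]
    have e2 : (∫ x in (0 : ℝ)..t, g x) = (∫ x in (0 : ℝ)..1, g x) + ∫ x in (1 : ℝ)..t, g x := by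
      rw [intervalIntegral.integral_add_adjacent_intervals
        (cg.intervalIntegrable _ _) (cg.intervalIntegrable _ _)]
    have e3 : ∫ x in (1 : ℝ)..t, pulse x = ∫ x in (1 : ℝ)..t, g x := by
      apply intervalIntegral.integral_congr
      intro x hx
      rw [uIcc_of_le ht] at hx
      exact hg1 x hx.1
    rw [e1, e2, e3]
    ring
  apply (tendsto_atTop_add_const_right _ (primP 1 - ∫ x in (0 : ℝ)..1, g x) ht).congr'
  filter_upwards [eventually_ge_atTop (1 : ℝ)] with t ht
  exact (h2 t ht).symm

theorem toTorus_eq_zero {x : R3} (h : toTorus x = 0) : ∃ m : Fin 3 → ℤ, ∀ i, x i = m i := by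
  have h1 : ∀ i, ∃ m : ℤ, x i = m := by
    intro i
    have := congrFun h i
    simp only [toTorus, Pi.zero_apply] at this
    rw [AddCircle.coe_eq_zero_iff] at this
    obtain ⟨m, hm⟩ := this
    exact ⟨m, by rw [← hm]; simp⟩
  choose m hm using h1
  exact ⟨m, hm⟩

/-- The speed gained at the height of the `n`-th tooth. -/
noncomputable def speed (a : ℕ → ℝ) (n : ℕ) : ℝ := comb a (kap n * primB 1)

theorem speed_eq (a : ℕ → ℝ) (n : ℕ) : speed a n = a n * tooth n (kap n * primB 1) := by
  apply comb_eq
  · unfold kap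
    have := lt_primB
    have h16 : (0 : ℝ) < 16 ^ n := by positivity
    have : (16 : ℝ) ^ (n + 1) * (50 / 16 ^ n * primB 1) = 800 * primB 1 := by
      rw [pow_succ]
      field_simp
      ring
    rw [this]
    exact lt_primB
  · unfold kap
    have : (16 : ℝ) ^ n * (50 / 16 ^ n * primB 1) = 50 * primB 1 := by
      field_simp
    rw [this]
    exact primB_lt

theorem tooth_height_pos (n : ℕ) : 0 < tooth n (kap n * primB 1) := by
  apply tooth_pos
  · unfold kap
    have : (16 : ℝ) ^ (n + 1) * (50 / 16 ^ n * primB 1) = 800 * primB 1 := by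
      rw [pow_succ]
      field_simp
      ring
    rw [this]
    exact lt_primB
  · unfold kap
    have : (16 : ℝ) ^ n * (50 / 16 ^ n * primB 1) = 50 * primB 1 := by
      field_simp
    rw [this]
    exact primB_lt

theorem kap_primB_mem (n : ℕ) : kap n * primB 1 ∈ Ioo (0 : ℝ) 1 := by
  have h16 : (1 : ℝ) ≤ 16 ^ n := one_le_pow₀ (by norm_num)
  have hb := primB_one_pos
  have hlt := primB_lt
  have : kap n ≤ 50 := by
    unfold kap
    exact div_le_self (by norm_num) h16
  have hk : 0 < kap n := by unfold kap; positivity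
  constructor
  · positivity
  · nlinarith

/-- Along any trajectory, the shear speed is the speed of the tooth. -/
theorem pulse_mul_profile (a : ℕ → ℝ) (n : ℕ) (m : ℤ) {t : ℝ} :
    pulse t * profile a (m + kap n * primB t) = pulse t * speed a n := by
  rcases le_total t 1 with h | h
  · rw [pulse_eq_zero h, zero_mul, zero_mul]
  · rw [primB_of_one_le h, add_comm, profile_add_int]
    congr 1
    unfold profile glue speed
    rw [one_mul, Int.fract_eq_self.2 ⟨(kap_primB_mem n).1.le, (kap_primB_mem n).2⟩]

/-- Every trajectory starting from (a lift of) `0` is explicit. -/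
theorem trajectory_explicit {a : ℕ → ℝ} {n : ℕ} {X : ℝ → R3} (hX : IsTrajectory (vel a n) 0 X) :
    ∃ m : Fin 3 → ℤ, ∀ t, 0 ≤ t → X t = ![m 0 + speed a n * primP t, m 1 + kap n * primB t, m 2] := by
  obtain ⟨h0, hd⟩ := hX
  obtain ⟨m, hm⟩ := toTorus_eq_zero h0
  refine ⟨m, ?_⟩
  have hd' : ∀ t, 0 ≤ t → ∀ i, HasDerivWithinAt (fun s => X s i) (vel a n t (X t) i) (Ici 0) t :=
    fun t ht i => (hasDerivWithinAt_pi.1 (hd t ht)) i
  have h2 : ∀ t, 0 ≤ t → X t 2 = m 2 := by
    intro t ht
    have : ∀ s, 0 ≤ s → HasDerivWithinAt (fun s => X s 2) 0 (Ici 0) s := by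
      intro s hs
      have := hd' s hs 2
      simpa [vel] using this
    rw [const_of_deriv_zero this ht, hm 2]
  have h1 : ∀ t, 0 ≤ t → X t 1 = m 1 + kap n * primB t := by
    intro t ht
    have : ∀ s, 0 ≤ s → HasDerivWithinAt (fun s => X s 1 - kap n * primB s) 0 (Ici 0) s := by
      intro s hs
      have e1 := hd' s hs 1
      have e2 : HasDerivWithinAt (fun s => kap n * primB s) (kap n * bump s) (Ici 0) s :=
        ((hasDerivAt_primB s).const_mul (kap n)).hasDerivWithinAt
      have := e1.fun_sub e2
      simpa [vel] using this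
    have h := const_of_deriv_zero this ht
    simp only [primB_zero, mul_zero, sub_zero] at h
    rw [hm 1] at h
    linarith
  have h3 : ∀ t, 0 ≤ t → X t 0 = m 0 + speed a n * primP t := by
    intro t ht
    have : ∀ s, 0 ≤ s → HasDerivWithinAt (fun s => X s 0 - speed a n * primP s) 0 (Ici 0) s := by
      intro s hs
      have e1 := hd' s hs 0
      have e2 : HasDerivWithinAt (fun s => speed a n * primP s) (speed a n * pulse s) (Ici 0) s :=
        ((hasDerivAt_primP s).const_mul (speed a n)).hasDerivWithinAt
      have e3 := e1.fun_sub e2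
      have e4 : vel a n s (X s) 0 - speed a n * pulse s = 0 := by
        have : vel a n s (X s) 0 = pulse s * profile a (X s 1) := rfl
        rw [this, h1 s hs, pulse_mul_profile]
        ring
      rw [e4] at e3
      exact e3
    have h := const_of_deriv_zero this ht
    simp only [primP_zero, mul_zero, sub_zero] at h
    rw [hm 0] at h
    linarith
  intro t ht
  funext i
  fin_cases i
  · exact h3 t ht
  · exact h1 t ht
  · exact h2 t ht

theorem exists_trajectory (a : ℕ → ℝ) (n : ℕ) : ∃ X, IsTrajectory (vel a n) 0 X := by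
  refine ⟨fun t => ![speed a n * primP t, kap n * primB t, 0], ?_, ?_⟩
  · funext i
    fin_cases i <;> simp [toTorus, primB_zero, primP_zero]
  · intro t _
    apply HasDerivAt.hasDerivWithinAt
    rw [hasDerivAt_pi]
    intro i
    fin_cases i
    · have h1 := (hasDerivAt_primP t).const_mul (speed a n)
      have h2 := pulse_mul_profile a n 0 (t := t)
      simp only [Int.cast_zero, zero_add] at h2
      have h3 : vel a n t ![speed a n * primP t, kap n * primB t, 0] 0 =
          pulse t * profile a (kap n * primB t) := rfl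
      change HasDerivAt (fun t => speed a n * primP t)
        (vel a n t ![speed a n * primP t, kap n * primB t, 0] 0) t
      rw [h3, h2, mul_comm]
      exact h1
    · exact (hasDerivAt_primB t).const_mul (kap n)
    · exact hasDerivAt_const _ _

/-- The detection set: the first coordinate is at distance more than `1/4` from `0`. -/
def target : Set T3 := {x | 1 / 4 < ‖x 0‖}

theorem isOpen_target : IsOpen target :=
  isOpen_lt continuous_const (continuous_apply 0).norm

theorem not_mem_target {a : ℕ → ℝ} {n : ℕ} (h : a n = 0) {X : ℝ → R3}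
    (hX : IsTrajectory (vel a n) 0 X) {t : ℝ} (ht : 0 ≤ t) : toTorus (X t) ∉ target := by
  obtain ⟨m, hm⟩ := trajectory_explicit hX
  have hs : speed a n = 0 := by rw [speed_eq, h, zero_mul]
  have h0 : toTorus (X t) 0 = 0 := by
    rw [toTorus, hm t ht]
    simp only [hs, zero_mul, add_zero, Matrix.cons_val_zero]
    rw [AddCircle.coe_eq_zero_iff]
    exact ⟨m 0, by simp⟩
  simp [target, h0]

theorem exists_mem_target {a : ℕ → ℝ} {n : ℕ} (h : 0 < a n) {X : ℝ → R3}
    (hX : IsTrajectory (vel a n) 0 X) : ∃ t, 0 ≤ t ∧ toTorus (X t) ∈ target := by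
  obtain ⟨m, hm⟩ := trajectory_explicit hX
  have hs : 0 < speed a n := by
    rw [speed_eq]
    exact mul_pos h (tooth_height_pos n)
  have ht : Tendsto (fun t => speed a n * primP t) atTop atTop :=
    Tendsto.const_mul_atTop hs tendsto_primP
  obtain ⟨t1, ht1, ht1'⟩ := ((ht.eventually_ge_atTop (1 / 2)).and (eventually_ge_atTop 0)).exists
  have hc : ContinuousOn (fun t => speed a n * primP t) (Icc 0 t1) := by
    apply Continuous.continuousOn
    apply continuous_const.mul
    exact continuous_iff_continuousAt.2 fun t => (hasDerivAt_primP t).continuousAt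
  have hmem : (1 / 2 : ℝ) ∈ Icc (speed a n * primP 0) (speed a n * primP t1) := by
    rw [primP_zero, mul_zero]
    exact ⟨by norm_num, ht1⟩
  obtain ⟨t, ht0, hteq⟩ := intermediate_value_Icc ht1' hc hmem
  refine ⟨t, ht0.1, ?_⟩
  have h0 : toTorus (X t) 0 = ((1 / 2 : ℝ) : UnitAddCircle) := by
    rw [toTorus, hm t ht0.1]
    simp only [Matrix.cons_val_zero]
    simp only [] at hteq
    rw [hteq, AddCircle.coe_add]
    have : ((m 0 : ℝ) : UnitAddCircle) = 0 := by
      rw [AddCircle.coe_eq_zero_iff]
      exact ⟨m 0, by simp⟩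
    rw [this, zero_add]
  change 1 / 4 < ‖toTorus (X t) 0‖
  rw [h0, AddCircle.norm_half_period_eq]
  norm_num

end Vale.Agent.P113
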