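import Vale.Agent.P113.Prog
import Vale.Agent.P113.Traj

/-! Assembly. -/

namespace Vale.Agent.P113

open Set

theorem frc_eventually_independent (ν : ℝ) (a : ℕ → ℝ) (n n' : ℕ) {t : ℝ} (ht : 1 ≤ t) :
    frc ν a n t = frc ν a n' t := by
  have h : iteratedDeriv 1 bump t = 0 :=
    bump_vanishesOff.iteratedDeriv contDiff_bump 1 t (Or.inr ht)
  funext x i
  fin_cases i <;> simp [frc, h]

theorem iteratedDeriv_pulse_add_one (k : ℕ) {t : ℝ} (ht : 1 ≤ t) :
    iteratedDeriv k pulse (t + 1) = iteratedDeriv k pulse t := by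
  rw [iteratedDeriv_pulse, iteratedDeriv_pulse, if_pos ht, if_pos (by linarith)]
  simp

theorem frc_eventually_periodic (ν : ℝ) (a : ℕ → ℝ) (n : ℕ) {t : ℝ} (ht : 1 ≤ t) :
    frc ν a n (t + 1) = frc ν a n t := by
  have h : iteratedDeriv 1 bump t = 0 :=
    bump_vanishesOff.iteratedDeriv contDiff_bump 1 t (Or.inr ht)
  have h' : iteratedDeriv 1 bump (t + 1) = 0 :=
    bump_vanishesOff.iteratedDeriv contDiff_bump 1 (t + 1) (Or.inr (by linarith))
  funext x i
  simp only [frc, iteratedDeriv_pulse_add_one 1 ht, pulse_add_one ht, h, h']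

theorem smoothInSpacetime_of_contDiff {β : Type} [NormedAddCommGroup β] [NormedSpace ℝ β]
    {g : ℝ → R3 → β} (h : ContDiff ℝ (⊤ : ℕ∞) (fun z : ℝ × R3 => g z.1 z.2)) :
    SmoothInSpacetime g := h.contDiffOn

end Vale.Agent.P113
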