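import Vale.Agent.P113.Main

/-! Additional properties of the construction. -/

namespace Vale.Agent.P113

open Set

theorem iteratedDeriv_pulse_eq_zero (k : ℕ) {t : ℝ} (ht : t ≤ 1) : iteratedDeriv k pulse t = 0 := by
  rw [iteratedDeriv_pulse]
  split_ifs with h
  · have : t = 1 := le_antisymm ht h
    subst this
    exact bump_vanishesOff.iteratedDeriv contDiff_bump k _ (Or.inl (by simp))
  · rfl

/-- During the loading stage the force does not depend on the machine. -/
theorem frc_loading (ν : ℝ) (a a' : ℕ → ℝ) (n : ℕ) {t : ℝ} (ht : t ≤ 1) :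
    frc ν a n t = frc ν a' n t := by
  have h : iteratedDeriv 1 pulse t = 0 := iteratedDeriv_pulse_eq_zero 1 ht
  have h' : pulse t = 0 := pulse_eq_zero ht
  funext x i
  simp only [frc, h, h', zero_mul, mul_zero]

theorem dist_target {x : T3} (hx : x 0 = 0) {y : T3} (hy : y ∈ target) : 1 / 4 ≤ dist x y := by
  have h1 : dist (x 0) (y 0) ≤ dist x y := dist_le_pi_dist x y 0
  have h2 : (1 : ℝ) / 4 < ‖y 0‖ := hy
  rw [hx, dist_zero_left] at h1
  linarith

theorem first_coord_eq_zero {a : ℕ → ℝ} {n : ℕ} (h : a n = 0) {X : ℝ → R3}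
    (hX : IsTrajectory (vel a n) 0 X) {t : ℝ} (ht : 0 ≤ t) : toTorus (X t) 0 = 0 := by
  obtain ⟨m, hm⟩ := trajectory_explicit hX
  have hs : speed a n = 0 := by rw [speed_eq, h, zero_mul]
  rw [toTorus, hm t ht]
  simp only [hs, zero_mul, add_zero, Matrix.cons_val_zero]
  rw [AddCircle.coe_eq_zero_iff]
  exact ⟨m 0, by simp⟩

end Vale.Agent.P113
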