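import Vale.Agent.P113.Amp
import Vale.Agent.P113.Flow

/-! Mixed derivatives of the force and the compiler. -/

namespace Vale.Agent.P113

open Set

variable {α : Type} [Primcodable α]

/-- Weighted count of directions. -/
def wsum (w : Option (Fin 3) → ℕ) : List (Option (Fin 3)) → ℕ
  | [] => 0
  | o :: l => w o + wsum w l

/-- Weight of the time direction. -/
def wT : Option (Fin 3) → ℕ := fun o => if o = none then 1 else 0

/-- Weight of the second space direction. -/
def wY : Option (Fin 3) → ℕ := fun o => if o = some 1 then 1 else 0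

/-- Weight of the other directions. -/
def wB : Option (Fin 3) → ℕ := fun o => if o = some 0 ∨ o = some 2 then 1 else 0

theorem computable_wsum (w : Option (Fin 3) → ℕ) : Computable (wsum w) := by
  have hw : Primrec w := Primrec.dom_finite w
  have h : Primrec fun l : List (Option (Fin 3)) => l.foldr (fun o m => w o + m) 0 := by
    refine Primrec.list_foldr (h := fun (_ : List (Option (Fin 3))) (p : Option (Fin 3) × ℕ) =>
      w p.1 + p.2) Primrec.id (Primrec.const 0) ?_
    exact Primrec.nat_add.comp (hw.comp (Primrec.fst.comp Primrec.snd))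
      (Primrec.snd.comp Primrec.snd)
  refine h.to_comp.of_eq fun l => ?_
  induction l with
  | nil => rfl
  | cons o l ih => simp only [List.foldr_cons, wsum, ih]

theorem dx_comp_one' {G : R3 → ℝ} {φ : ℝ → ℝ} (h : ∀ y, G y = φ (y 1)) (j : Fin 3) (x : R3) :
    dx j G x = if j = 1 then deriv φ (x 1) else 0 := by
  have : G = fun y => φ (y 1) := funext h
  rw [this]
  exact dx_comp_one φ j x

theorem derivWithin_Ici {φ : ℝ → ℝ} (hφ : ContDiff ℝ (⊤ : ℕ∞) φ) (k : ℕ) (t : ℝ) :
    HasDerivWithinAt (iteratedDeriv k φ) (iteratedDeriv (k + 1) φ t) (Ici 0) t := by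
  have hd : Differentiable ℝ (iteratedDeriv k φ) :=
    (contDiff_smooth_of hφ k).differentiable (by simp)
  rw [iteratedDeriv_succ]
  exact (hd t).hasDerivAt.hasDerivWithinAt

theorem uniqueDiff_Ici {t : ℝ} (ht : 0 ≤ t) : UniqueDiffWithinAt ℝ (Ici (0 : ℝ)) t :=
  uniqueDiffOn_Ici 0 t ht

/-- Formula for the mixed derivatives of the first component of the force. -/
theorem mixed_zero {a : ℕ → ℝ} (ha : ∀ n, |a n| ≤ 1 / (n.factorial : ℝ)) (ν : ℝ) (n : ℕ)
    (l : List (Option (Fin 3))) : ∀ t, 0 ≤ t → ∀ x : R3,
    mixedDeriv l (fun t x => frc ν a n t x 0) t x =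
      if wsum wB l = 0 then
        iteratedDeriv (wsum wT l + 1) pulse t * iteratedDeriv (wsum wY l) (profile a) (x 1) -
          ν * (iteratedDeriv (wsum wT l) pulse t *
            iteratedDeriv (wsum wY l + 2) (profile a) (x 1))
      else 0 := by
  induction l with
  | nil =>
    intro t _ x
    simp [mixedDeriv, wsum, frc]
  | cons o l ih =>
    intro t ht x
    rcases o with _ | j
    · -- time derivative
      have e0 : wsum wB (none :: l) = wsum wB l := by simp [wsum, wB]
      have e1 : wsum wT (none :: l) = wsum wT l + 1 := by simp [wsum, wT, add_comm]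
      have e2 : wsum wY (none :: l) = wsum wY l := by simp [wsum, wY]
      rw [e0, e1, e2]
      simp only [mixedDeriv]
      have hEq : EqOn (fun s => mixedDeriv l (fun t x => frc ν a n t x 0) s x) (fun s =>
          if wsum wB l = 0 then
            iteratedDeriv (wsum wT l + 1) pulse s * iteratedDeriv (wsum wY l) (profile a) (x 1) -
              ν * (iteratedDeriv (wsum wT l) pulse s *
                iteratedDeriv (wsum wY l + 2) (profile a) (x 1))
          else 0) (Ici 0) := fun s hs => ih s hs x
      rw [derivWithin_congr hEq (ih t ht x)]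
      split_ifs with hb
      · have d1 := (derivWithin_Ici contDiff_pulse (wsum wT l + 1) t).mul_const
          (iteratedDeriv (wsum wY l) (profile a) (x 1))
        have d2 := ((derivWithin_Ici contDiff_pulse (wsum wT l) t).mul_const
          (iteratedDeriv (wsum wY l + 2) (profile a) (x 1))).const_mul ν
        exact (d1.fun_sub d2).derivWithin (uniqueDiff_Ici ht)
      · simp
    · -- space derivative
      simp only [mixedDeriv]
      rw [dx_comp_one' (φ := fun s : ℝ => if wsum wB l = 0 then
            iteratedDeriv (wsum wT l + 1) pulse t * iteratedDeriv (wsum wY l) (profile a) s -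
              ν * (iteratedDeriv (wsum wT l) pulse t *
                iteratedDeriv (wsum wY l + 2) (profile a) s)
            else 0) (fun y => ih t ht y)]
      by_cases hj : j = 1
      · subst hj
        have e0 : wsum wB (some 1 :: l) = wsum wB l := by simp [wsum, wB]
        have e1 : wsum wT (some 1 :: l) = wsum wT l := by simp [wsum, wT]
        have e2 : wsum wY (some 1 :: l) = wsum wY l + 1 := by simp [wsum, wY, add_comm]
        rw [e0, e1, e2, if_pos rfl]
        have hP : ∀ k, HasDerivAt (iteratedDeriv k (profile a))
            (iteratedDeriv (k + 1) (profile a) (x 1)) (x 1) := by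
          intro k
          have hd : Differentiable ℝ (iteratedDeriv k (profile a)) :=
            (contDiff_smooth_of (contDiff_profile ha) k).differentiable (by simp)
          rw [iteratedDeriv_succ]
          exact (hd (x 1)).hasDerivAt
        split_ifs with hb
        · have d1 := (hP (wsum wY l)).const_mul (iteratedDeriv (wsum wT l + 1) pulse t)
          have d2 := ((hP (wsum wY l + 2)).const_mul
            (iteratedDeriv (wsum wT l) pulse t)).const_mul ν
          exact (d1.fun_sub d2).deriv
        · simp
      · have e0 : wsum wB (some j :: l) ≠ 0 := by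
          have : j = 0 ∨ j = 2 := by
            fin_cases j
            · left; rfl
            · exact absurd rfl hj
            · right; rfl
          rcases this with rfl | rfl <;> simp [wsum, wB]
        rw [if_neg hj, if_neg e0]

/-- Formula for the mixed derivatives of the second component of the force. -/
theorem mixed_one {a : ℕ → ℝ} (ν : ℝ) (n : ℕ)
    (l : List (Option (Fin 3))) : ∀ t, 0 ≤ t → ∀ x : R3,
    mixedDeriv l (fun t x => frc ν a n t x 1) t x =
      if wsum wB l + wsum wY l = 0 then kap n * iteratedDeriv (wsum wT l + 1) bump t else 0 := by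
  induction l with
  | nil =>
    intro t _ x
    simp [mixedDeriv, wsum, frc]
  | cons o l ih =>
    intro t ht x
    rcases o with _ | j
    · -- time derivative
      have e0 : wsum wB (none :: l) = wsum wB l := by simp [wsum, wB]
      have e1 : wsum wT (none :: l) = wsum wT l + 1 := by simp [wsum, wT, add_comm]
      have e2 : wsum wY (none :: l) = wsum wY l := by simp [wsum, wY]
      rw [e0, e1, e2]
      simp only [mixedDeriv]
      have hEq : EqOn (fun s => mixedDeriv l (fun t x => frc ν a n t x 1) s x) (fun s =>
          if wsum wB l + wsum wY l = 0 then kap n * iteratedDeriv (wsum wT l + 1) bump s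
            else 0) (Ici 0) := fun s hs => ih s hs x
      rw [derivWithin_congr hEq (ih t ht x)]
      split_ifs with hb
      · exact ((derivWithin_Ici contDiff_bump (wsum wT l + 1) t).const_mul
          (kap n)).derivWithin (uniqueDiff_Ici ht)
      · simp
    · -- space derivative
      have h1 : (fun y => mixedDeriv l (fun t x => frc ν a n t x 1) t y) = fun _ : R3 =>
          if wsum wB l + wsum wY l = 0 then kap n * iteratedDeriv (wsum wT l + 1) bump t
            else 0 := by
        funext y
        exact ih t ht y
      have e0 : wsum wB (some j :: l) + wsum wY (some j :: l) ≠ 0 := by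
        have : j = 0 ∨ j = 1 ∨ j = 2 := by
          fin_cases j
          · left; rfl
          · right; left; rfl
          · right; right; rfl
        rcases this with rfl | rfl | rfl <;> simp [wsum, wB, wY]
      simp only [mixedDeriv]
      rw [h1, if_neg e0]
      simp [dx]

/-- Formula for the mixed derivatives of the third component of the force. -/
theorem mixed_two {a : ℕ → ℝ} (ν : ℝ) (n : ℕ)
    (l : List (Option (Fin 3))) : ∀ t, 0 ≤ t → ∀ x : R3,
    mixedDeriv l (fun t x => frc ν a n t x 2) t x = 0 := by
  induction l with
  | nil =>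
    intro t _ x
    simp [mixedDeriv, frc]
  | cons o l ih =>
    intro t ht x
    rcases o with _ | j
    · simp only [mixedDeriv]
      have hEq : EqOn (fun s => mixedDeriv l (fun t x => frc ν a n t x 2) s x) (fun _ => (0 : ℝ))
          (Ici 0) := fun s hs => ih s hs x
      rw [derivWithin_congr hEq (ih t ht x)]
      simp
    · have h1 : (fun y => mixedDeriv l (fun t x => frc ν a n t x 2) t y) = fun _ : R3 =>
          (0 : ℝ) := by
        funext y
        exact ih t ht y
      simp only [mixedDeriv]
      rw [h1]
      simp [dx]

/-! ### The compiler -/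

open Encodable in
theorem exists_compile {A B C : Type} [Primcodable A] [Primcodable B] [Primcodable C]
    {H : A × B → C} (hH : Computable H) :
    ∃ compile : A → Nat.Partrec.Code, Computable compile ∧
      ∀ a b, (compile a).eval (encode b) = Part.some (encode (H (a, b))) := by
  obtain ⟨c0, hc0⟩ := Nat.Partrec.Code.exists_code.1 hH
  obtain ⟨f, hf, hf'⟩ := Nat.Partrec.Code.smn
  refine ⟨fun a => f c0 (encode a), hf.comp (Computable.const c0) Computable.encode, ?_⟩
  intro a b
  rw [hf', hc0]
  have : Nat.pair (encode a) (encode b) = encode (a, b) := rfl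
  rw [this]
  simp [encodek]

/-- The queries answered by a program: directions, component, rational point. -/
abbrev Query : Type :=
  List (Option (Fin 3)) × Fin 3 × (RatCode × RatCode × RatCode × RatCode)

/-- The value asked by a query. -/
noncomputable def qval (ν : ℝ) (p : (MachineCode × List ℕ) × Query) : ℝ :=
  if decide (p.2.2.1 = 0) = true then
    (if decide (wsum wB p.2.1 ≤ 0) = true then
      iteratedDeriv (wsum wT p.2.1 + 1) pulse (ratVal p.2.2.2.1) *
          iteratedDeriv (wsum wY p.2.1) (profile (amp p.1.1)) (ratVal p.2.2.2.2.2.1) -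
        ν * (iteratedDeriv (wsum wT p.2.1) pulse (ratVal p.2.2.2.1) *
          iteratedDeriv (wsum wY p.2.1 + 2) (profile (amp p.1.1)) (ratVal p.2.2.2.2.2.1))
      else ((0 : ℕ) : ℝ))
  else (if decide (p.2.2.1 = 1) = true then
    (if decide (wsum wB p.2.1 + wsum wY p.2.1 ≤ 0) = true then
      kap (Encodable.encode p.1.2) * iteratedDeriv (wsum wT p.2.1 + 1) bump (ratVal p.2.2.2.1)
      else ((0 : ℕ) : ℝ))
    else ((0 : ℕ) : ℝ))

theorem cf_qval {ν : ℝ} (hν : IsComputableReal ν) : CF (qval ν) := by
  obtain ⟨F, hF, hF'⟩ := hν
  have hνc : CF fun _ : (MachineCode × List ℕ) × Query => ν :=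
    ⟨fun p => ratVal (F p.2), RF.code (hF.comp Computable.snd), fun _ k => hF' k⟩
  have cC : Computable fun p : (MachineCode × List ℕ) × Query => p.1.1 :=
    Computable.fst.comp Computable.fst
  have cW : Computable fun p : (MachineCode × List ℕ) × Query => Encodable.encode p.1.2 :=
    Computable.encode.comp (Computable.snd.comp Computable.fst)
  have cL : Computable fun p : (MachineCode × List ℕ) × Query => p.2.1 :=
    Computable.fst.comp Computable.snd
  have cI : Computable fun p : (MachineCode × List ℕ) × Query => p.2.2.1 :=
    Computable.fst.comp (Computable.snd.comp Computable.snd)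
  have cQ : Computable fun p : (MachineCode × List ℕ) × Query => p.2.2.2 :=
    Computable.snd.comp (Computable.snd.comp Computable.snd)
  have cT : Computable fun p : (MachineCode × List ℕ) × Query => p.2.2.2.1 :=
    Computable.fst.comp cQ
  have cY : Computable fun p : (MachineCode × List ℕ) × Query => p.2.2.2.2.2.1 :=
    Computable.fst.comp (Computable.snd.comp (Computable.snd.comp cQ))
  have rT : RF fun p : (MachineCode × List ℕ) × Query => ratVal p.2.2.2.1 := RF.code cT
  have rY : RF fun p : (MachineCode × List ℕ) × Query => ratVal p.2.2.2.2.2.1 := RF.code cY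
  have nT : Computable fun p : (MachineCode × List ℕ) × Query => wsum wT p.2.1 :=
    (computable_wsum wT).comp cL
  have nY : Computable fun p : (MachineCode × List ℕ) × Query => wsum wY p.2.1 :=
    (computable_wsum wY).comp cL
  have nB : Computable fun p : (MachineCode × List ℕ) × Query => wsum wB p.2.1 :=
    (computable_wsum wB).comp cL
  have b0 : Computable fun p : (MachineCode × List ℕ) × Query => decide (p.2.2.1 = 0) :=
    (Primrec.dom_finite (fun i : Fin 3 => decide (i = 0))).to_comp.comp cI
  have b1 : Computable fun p : (MachineCode × List ℕ) × Query => decide (p.2.2.1 = 1) :=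
    (Primrec.dom_finite (fun i : Fin 3 => decide (i = 1))).to_comp.comp cI
  have bB : Computable fun p : (MachineCode × List ℕ) × Query => decide (wsum wB p.2.1 ≤ 0) :=
    cle nB (Computable.const 0)
  have bBY : Computable fun p : (MachineCode × List ℕ) × Query =>
      decide (wsum wB p.2.1 + wsum wY p.2.1 ≤ 0) := cle (cadd nB nY) (Computable.const 0)
  have z : CF fun _ : (MachineCode × List ℕ) × Query => ((0 : ℕ) : ℝ) := (RF.constNat 0).toCF
  have p1 : CF fun p : (MachineCode × List ℕ) × Query =>
      iteratedDeriv (wsum wT p.2.1 + 1) pulse (ratVal p.2.2.2.1) := by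
    exact CF.iterPulse rT (csucc nT)
  have p2 : CF fun p : (MachineCode × List ℕ) × Query =>
      iteratedDeriv (wsum wY p.2.1) (profile (amp p.1.1)) (ratVal p.2.2.2.2.2.1) := by
    exact CF.iterProfile cC rY nY
  have p3 : CF fun p : (MachineCode × List ℕ) × Query =>
      iteratedDeriv (wsum wT p.2.1) pulse (ratVal p.2.2.2.1) := by
    exact CF.iterPulse rT nT
  have p4 : CF fun p : (MachineCode × List ℕ) × Query =>
      iteratedDeriv (wsum wY p.2.1 + 2) (profile (amp p.1.1)) (ratVal p.2.2.2.2.2.1) := by
    exact CF.iterProfile cC rY (csucc (csucc nY))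
  have p5 : CF fun p : (MachineCode × List ℕ) × Query =>
      iteratedDeriv (wsum wT p.2.1 + 1) bump (ratVal p.2.2.2.1) := by
    exact CF.iterBump rT (csucc nT)
  have p6 : CF fun p : (MachineCode × List ℕ) × Query => kap (Encodable.encode p.1.2) := by
    have h16 : RF fun p : (MachineCode × List ℕ) × Query =>
        (((16 : ℕ) : ℝ)) ^ (Encodable.encode p.1.2) := (RF.constNat 16).pow cW
    have h50 : RF fun _ : (MachineCode × List ℕ) × Query => ((50 : ℕ) : ℝ) := RF.constNat 50
    exact (h50.div h16).toCF.congr fun p => by simp [kap]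
  have t0 := (p1.mul p2).sub (hνc.mul (p3.mul p4))
  have t1 := p6.mul p5
  exact CF.ite b0 (CF.ite bB t0 z) (CF.ite b1 (CF.ite bBY t1 z) z)

theorem mixedDeriv_frc (ν : ℝ) (c : MachineCode) (w : List ℕ) (l : List (Option (Fin 3)))
    (i : Fin 3) (q : RatCode × RatCode × RatCode × RatCode) (ht : 0 ≤ ratVal q.1) :
    mixedDeriv l (fun t x => frc ν (amp c) (Encodable.encode w) t x i) (ratVal q.1)
      ![ratVal q.2.1, ratVal q.2.2.1, ratVal q.2.2.2] = qval ν ((c, w), (l, i, q)) := by
  unfold qval
  simp only [decide_eq_true_eq, nonpos_iff_eq_zero, Nat.cast_zero]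
  have hi : i = 0 ∨ i = 1 ∨ i = 2 := by
    fin_cases i
    · left; rfl
    · right; left; rfl
    · right; right; rfl
  rcases hi with rfl | rfl | rfl
  · rw [mixed_zero (abs_amp_le c) ν _ l _ ht]
    simp
  · rw [mixed_one ν _ l _ ht]
    simp
  · rw [mixed_two ν _ l _ ht]
    simp

/-- The compiler. -/
theorem exists_compiler {ν : ℝ} (hν : IsComputableReal ν) :
    ∃ compile : MachineCode × List ℕ → Nat.Partrec.Code, Computable compile ∧
      ∀ c w, IsProgramFor (compile (c, w)) (frc ν (amp c) (Encodable.encode w)) := by
  obtain ⟨ψ, ⟨g, hg, hgψ⟩, hψ⟩ := cf_qval hν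
  -- reorganise the arguments
  have hH : Computable fun p : (MachineCode × List ℕ) × (List (Option (Fin 3)) × Fin 3 ×
      (RatCode × RatCode × RatCode × RatCode) × ℕ) =>
      g ((p.1, (p.2.1, p.2.2.1, p.2.2.2.1)), p.2.2.2.2) := by
    apply hg.comp
    have h1 : Computable fun p : (MachineCode × List ℕ) × (List (Option (Fin 3)) × Fin 3 ×
      (RatCode × RatCode × RatCode × RatCode) × ℕ) => p.2.2.2 :=
      Computable.snd.comp (Computable.snd.comp Computable.snd)
    exact (Computable.fst.pair ((Computable.fst.comp Computable.snd).pair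
      ((Computable.fst.comp (Computable.snd.comp Computable.snd)).pair
        (Computable.fst.comp h1)))).pair (Computable.snd.comp h1)
  obtain ⟨compile, hc, hc'⟩ := exists_compile hH
  refine ⟨compile, hc, ?_⟩
  intro c w l i q k ht
  refine ⟨g (((c, w), (l, i, q)), k), hc' (c, w) (l, i, q, k), ?_⟩
  rw [mixedDeriv_frc ν c w l i q ht, hgψ]
  exact hψ _ k

end Vale.Agent.P113
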